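import Mathlib
import Vale.Agent.P052.Check

/-! The finite combinatorial core: no two-graph on ten points has index three. -/

namespace Vale.Agent.P052

lemma allBelow_spec (f : ℕ → Bool) : ∀ n, allBelow f n = true → ∀ m < n, f m = true := by
  intro n
  induction n with
  | zero => intro _ m hm; omega
  | succ n ih =>
    intro h m hm
    simp only [allBelow, Bool.and_eq_true] at h
    rcases Nat.lt_succ_iff_lt_or_eq.1 hm with h' | rfl
    · exact ih h.2 m h'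
    · exact h.1

lemma coverable_of (k : ℕ) : ∀ (L : List Tri) (ms : List ℕ), ms.length ≤ k → (∀ m ∈ ms, m ∈ r64) →
    (∀ t ∈ L, ∃ m ∈ ms, covers m t = true) → coverable k L = true := by
  induction k with
  | zero =>
    intro L ms h1 _ h3
    cases L with
    | nil => rfl
    | cons t L =>
      obtain ⟨m, hm, -⟩ := h3 t (by simp)
      have : ms = [] := List.length_eq_zero_iff.1 (by omega)
      simp [this] at hm
  | succ k ih =>
    intro L ms h1 h2 h3
    cases L with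
    | nil => rfl
    | cons t L =>
      obtain ⟨m, hm, hc⟩ := h3 t (by simp)
      simp only [coverable, List.any_eq_true, Bool.and_eq_true]
      refine ⟨m, h2 m hm, hc, ih _ (ms.erase m) ?_ ?_ ?_⟩
      · rw [List.length_erase_of_mem hm]; omega
      · intro m' hm'; exact h2 m' (List.mem_of_mem_erase hm')
      · intro s hs
        simp only [List.mem_filter, Bool.not_eq_true'] at hs
        obtain ⟨m', hm', hc'⟩ := h3 s (by simp [hs.1])
        refine ⟨m', ?_, hc'⟩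
        have : m' ≠ m := by
          rintro rfl; rw [hs.2] at hc'; exact absurd hc' (by simp)
        exact (List.mem_erase_of_ne this).2 hm'

lemma eqb_iff (a b : Bool) : eqb a b = true ↔ a = b := by revert a b; decide

lemma check_false (e : ℕ → ℕ → Bool) (ms : List ℕ) (h1 : ms.length ≤ 4) (h2 : ∀ m ∈ ms, m ∈ r64)
    (h : ∀ p ∈ matchings, ∀ k, ∃ t ∈ constr e p k, ∃ m ∈ ms, covers m t = true) :
    check e = false := by
  have hsub : ∀ p ∈ matchings3, p ∈ matchings := by decide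
  simp only [check, Bool.or_eq_false_iff, Bool.not_eq_false']
  constructor
  · rw [List.any_eq_false]
    intro C hC
    simp only [constrs, List.mem_flatMap, List.mem_map] at hC
    obtain ⟨p, hp, k, -, rfl⟩ := hC
    obtain ⟨t, ht, -⟩ := h p hp k
    intro hc
    rw [List.isEmpty_iff] at hc
    rw [hc] at ht
    simp at ht
  · apply coverable_of 4 _ ms h1 h2
    intro t ht
    simp only [constrs, List.mem_filterMap, List.mem_flatMap, List.mem_map] at ht
    obtain ⟨C, ⟨p, hp, k, -, rfl⟩, hC⟩ := ht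
    obtain ⟨t', ht', hm⟩ := h p (hsub p hp) k
    have : constr e p k = [t] := by
      revert hC
      generalize constr e p k = C
      intro hC
      match C, hC with
      | [u], hC => simp only [single, Option.some.injEq] at hC; rw [hC]
    rw [this, List.mem_singleton] at ht'
    rw [← ht']; exact hm

def toB (x : ZMod 2) : Bool := decide (x = 1)

def ofB (b : Bool) : ZMod 2 := if b then 1 else 0

def code6 (b1 b2 b3 b4 b5 b6 : Bool) : ℕ :=
  cond b1 1 0 + cond b2 2 0 + cond b3 4 0 + cond b4 8 0 + cond b5 16 0 + cond b6 32 0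

lemma code6_mem : ∀ b0 b1 b2 b3 b4 b5 : Bool, code6 b0 b1 b2 b3 b4 b5 ∈ r64 := by
  decide +kernel

lemma code6_spec : ∀ b0 b1 b2 b3 b4 b5 : Bool,
    let m := code6 b0 b1 b2 b3 b4 b5
    bit m 0 = b0 ∧ bit m 1 = b1 ∧ bit m 2 = b2 ∧ bit m 3 = b3 ∧ bit m 4 = b4 ∧ bit m 5 = b5 := by
  decide +kernel

lemma exists_code6 (b0 b1 b2 b3 b4 b5 : Bool) : ∃ m ∈ r64, bit m 0 = b0 ∧ bit m 1 = b1 ∧
    bit m 2 = b2 ∧ bit m 3 = b3 ∧ bit m 4 = b4 ∧ bit m 5 = b5 :=
  ⟨_, code6_mem b0 b1 b2 b3 b4 b5, code6_spec b0 b1 b2 b3 b4 b5⟩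

def code10 (b1 b2 b3 b4 b5 b6 b7 b8 b9 b10 : Bool) : ℕ :=
  cond b1 1 0 + cond b2 2 0 + cond b3 4 0 + cond b4 8 0 + cond b5 16 0 + cond b6 32 0 +
    cond b7 64 0 + cond b8 128 0 + cond b9 256 0 + cond b10 512 0

lemma code10_spec : ∀ b1 b2 b3 b4 b5 b6 b7 b8 b9 b10 : Bool,
    let m := code10 b1 b2 b3 b4 b5 b6 b7 b8 b9 b10
    m < 1024 ∧ bit m 0 = b1 ∧ bit m 1 = b2 ∧ bit m 2 = b3 ∧ bit m 3 = b4 ∧ bit m 4 = b5 ∧
      bit m 5 = b6 ∧ bit m 6 = b7 ∧ bit m 7 = b8 ∧ bit m 8 = b9 ∧ bit m 9 = b10 ∧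
      bit m 15 = false := by
  decide +kernel

lemma exists_code10 (e : Fin 6 → Fin 6 → Bool) (hs : ∀ a b, e a b = e b a)
    (h0 : ∀ a, a ≠ 0 → e 0 a = false) :
    ∃ m < 1024, ∀ a b : Fin 6, a ≠ b → eN m a.val b.val = e a b := by
  obtain ⟨h, c0, c1, c2, c3, c4, c5, c6, c7, c8, c9, c15⟩ :=
    code10_spec (e 1 2) (e 1 3) (e 1 4) (e 1 5) (e 2 3) (e 2 4) (e 2 5) (e 3 4) (e 3 5) (e 4 5)
  refine ⟨_, h, ?_⟩
  have h1 := h0 1 (by decide)
  have h2 := h0 2 (by decide)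
  have h3 := h0 3 (by decide)
  have h4 := h0 4 (by decide)
  have h5 := h0 5 (by decide)
  have key : ∀ a b : Fin 6, a < b → eN (code10 (e 1 2) (e 1 3) (e 1 4) (e 1 5) (e 2 3) (e 2 4)
      (e 2 5) (e 3 4) (e 3 5) (e 4 5)) a.val b.val = e a b := by
    intro a b hab
    fin_cases a <;> fin_cases b <;>
      first
      | exact absurd hab (by decide)
      | exact c15.trans h1.symm
      | exact c15.trans h2.symm
      | exact c15.trans h3.symm
      | exact c15.trans h4.symm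
      | exact c15.trans h5.symm
      | exact c0 | exact c1 | exact c2 | exact c3 | exact c4 | exact c5 | exact c6 | exact c7
      | exact c8 | exact c9
  have hsym : ∀ m, ∀ a b : Fin 6, eN m a.val b.val = eN m b.val a.val := by
    intro m a b
    fin_cases a <;> fin_cases b <;> rfl
  intro a b hab
  rcases lt_or_gt_of_ne hab with h | h
  · exact key a b h
  · rw [hsym, hs a b]; exact key b a h

def matchingsF : List (Fin 6 → Fin 6) :=
  [![0,1,2,3,4,5], ![0,1,2,4,3,5], ![0,1,2,5,3,4], ![0,2,1,3,4,5], ![0,2,1,4,3,5], ![0,2,1,5,3,4],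
   ![0,3,1,2,4,5], ![0,3,1,4,2,5], ![0,3,1,5,2,4], ![0,4,1,2,3,5], ![0,4,1,3,2,5], ![0,4,1,5,2,3],
   ![0,5,1,2,3,4], ![0,5,1,3,2,4], ![0,5,1,4,2,3]]

def toMt (p : Fin 6 → Fin 6) : Mt := ((p 0).val, (p 1).val, (p 2).val, (p 3).val, (p 4).val, (p 5).val)

lemma matchings_eq : matchings = matchingsF.map toMt := by decide +kernel

lemma matchingsF_inj : ∀ p ∈ matchingsF, Function.Injective p := by
  intro p hp
  simp only [matchingsF, List.mem_cons, List.not_mem_nil, or_false] at hp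
  rcases hp with rfl | rfl | rfl | rfl | rfl | rfl | rfl | rfl | rfl | rfl | rfl | rfl | rfl |
    rfl | rfl <;> decide

/-- Boolean form of the six-point statement. -/
theorem six_points (e : Fin 6 → Fin 6 → Bool) (hs : ∀ a b, e a b = e b a)
    (h0 : ∀ a, a ≠ 0 → e 0 a = false) (n : Fin 4 → Fin 6 → Bool)
    (H : ∀ p : Fin 6 → Fin 6, Function.Injective p → ∀ k : Fin 6 → Bool,
      e (p 0) (p 1) = xor (k 0) (k 1) → e (p 2) (p 3) = xor (k 2) (k 3) →
      e (p 4) (p 5) = xor (k 4) (k 5) →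
      ∃ r0 r1 r2 : Fin 6, (r0 = 0 ∨ r0 = 1) ∧ (r1 = 2 ∨ r1 = 3) ∧ (r2 = 4 ∨ r2 = 5) ∧
        e (p r0) (p r1) = xor (k r0) (k r1) ∧ e (p r0) (p r2) = xor (k r0) (k r2) ∧
        e (p r1) (p r2) = xor (k r1) (k r2) ∧
        ∃ i, n i (p r0) = k r0 ∧ n i (p r1) = k r1 ∧ n i (p r2) = k r2) : False := by
  obtain ⟨m, hm, hme⟩ := exists_code10 e hs h0
  have hn : ∀ i, ∃ c ∈ r64, ∀ a : Fin 6, bit c a.val = n i a := by
    intro i
    obtain ⟨c, hc, c0, c1, c2, c3, c4, c5⟩ :=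
      exists_code6 (n i 0) (n i 1) (n i 2) (n i 3) (n i 4) (n i 5)
    refine ⟨c, hc, fun a => ?_⟩
    fin_cases a
    exacts [c0, c1, c2, c3, c4, c5]
  choose c hc1 hc2 using hn
  have h1 := allBelow_spec _ _ check_all m hm
  rw [check_false (eN m) [c 0, c 1, c 2, c 3] (by simp) (by simp [hc1])] at h1
  · exact absurd h1 (by simp)
  intro q hq k
  rw [matchings_eq] at hq
  obtain ⟨p, hp, rfl⟩ := List.mem_map.1 hq
  have hinj := matchingsF_inj p hp
  obtain ⟨k0, k1, k2⟩ := k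
  have hne : ∀ r r' : Fin 6, r ≠ r' → eN m (p r).val (p r').val = e (p r) (p r') :=
    fun r r' h => hme _ _ (fun h' => h (hinj h'))
  set k : Fin 6 → Bool := ![k0, xor k0 (e (p 0) (p 1)), k1, xor k1 (e (p 2) (p 3)), k2,
    xor k2 (e (p 4) (p 5))] with hk
  obtain ⟨r0, r1, r2, hr0, hr1, hr2, e1, e2, e3, i, n1, n2, n3⟩ := H p hinj k
    (by simp [hk]) (by simp [hk]) (by simp [hk])
  refine ⟨(((p r0).val, k r0), ((p r1).val, k r1), ((p r2).val, k r2)), ?_, c i, ?_, ?_⟩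
  · simp only [constr, toMt, List.mem_filter]
    constructor
    · rw [hne 0 1 (by decide), hne 2 3 (by decide), hne 4 5 (by decide)]
      rcases hr0 with rfl | rfl <;> rcases hr1 with rfl | rfl <;> rcases hr2 with rfl | rfl <;>
        simp [transv, hk]
    · simp only [clique, Bool.and_eq_true, eqb_iff]
      rw [hne r0 r1, hne r0 r2, hne r1 r2]
      · exact ⟨⟨e1, e2⟩, e3⟩
      all_goals
        rcases hr0 with rfl | rfl <;> rcases hr1 with rfl | rfl <;> rcases hr2 with rfl | rfl <;>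
          decide
  · fin_cases i <;> simp
  · simp only [covers, Bool.and_eq_true, eqb_iff, hc2]
    exact ⟨⟨n1, n2⟩, n3⟩

/-- The index hypothesis coming from the Ky Fan theorem on the three-sphere. -/
def Hyp (ε : Fin 10 → Fin 10 → ZMod 2) : Prop :=
  ∀ (π : Fin 10 → ℕ) (κ : Fin 10 → ZMod 2), (∀ a, π a < 10) →
    (∀ a b, a ≠ b → π a = π b → ε a b = κ a + κ b) →
    ∃ a0 a1 a2 a3, π a0 < π a1 ∧ π a1 < π a2 ∧ π a2 < π a3 ∧
      ε a0 a1 = κ a0 + κ a1 + 1 ∧ ε a0 a2 = κ a0 + κ a2 ∧ ε a0 a3 = κ a0 + κ a3 + 1 ∧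
      ε a1 a2 = κ a1 + κ a2 + 1 ∧ ε a1 a3 = κ a1 + κ a3 ∧ ε a2 a3 = κ a2 + κ a3 + 1

lemma lemA (ε : Fin 10 → Fin 10 → ZMod 2) (hs : ∀ a b, ε a b = ε b a) (H : Hyp ε)
    (g : Fin 6 → Fin 10) (f : Fin 4 → Fin 10) (hinj : Function.Injective (Sum.elim g f))
    (lam : Fin 4 → ZMod 2) (hf : ∀ i j, i ≠ j → ε (f i) (f j) = lam i + lam j)
    (κ : Fin 6 → ZMod 2) (h1 : ε (g 0) (g 1) = κ 0 + κ 1) (h2 : ε (g 2) (g 3) = κ 2 + κ 3)
    (h3 : ε (g 4) (g 5) = κ 4 + κ 5) :
    ∃ r0 r1 r2 : Fin 6, (r0 = 0 ∨ r0 = 1) ∧ (r1 = 2 ∨ r1 = 3) ∧ (r2 = 4 ∨ r2 = 5) ∧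
      ε (g r0) (g r1) = κ r0 + κ r1 ∧ ε (g r0) (g r2) = κ r0 + κ r2 ∧
      ε (g r1) (g r2) = κ r1 + κ r2 ∧
      ∃ i, ε (g r0) (f i) + lam i = κ r0 ∧ ε (g r1) (f i) + lam i = κ r1 ∧
        ε (g r2) (f i) + lam i = κ r2 := by
  have hbij : Function.Bijective (Sum.elim g f) :=
    (Fintype.bijective_iff_injective_and_card _).2 ⟨hinj, by simp⟩
  set φ := Equiv.ofBijective _ hbij with hφ
  let π' : Fin 6 ⊕ Fin 4 → ℕ := Sum.elim ![0, 0, 1, 1, 2, 2] (fun _ => 3)
  let κ' : Fin 6 ⊕ Fin 4 → ZMod 2 :=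
    Sum.elim (fun r => κ r + ![0, 0, 1, 1, 0, 0] r) (fun i => lam i + 1)
  have hπ : ∀ u, π' u ≤ 3 := by decide
  have hlr : ∀ r j, π' (Sum.inl r) ≠ π' (Sum.inr j) := by decide
  obtain ⟨a0, a1, a2, a3, l1, l2, l3, e01, e02, e03, e12, e13, e23⟩ :=
    H (fun a => π' (φ.symm a)) (fun a => κ' (φ.symm a))
      (fun a => lt_of_le_of_lt (hπ _) (by norm_num)) (by
        intro a b hab hp
        obtain ⟨u, rfl⟩ := φ.surjective a
        obtain ⟨v, rfl⟩ := φ.surjective b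
        simp only [Equiv.symm_apply_apply] at hp ⊢
        have huv : u ≠ v := fun h => hab (by rw [h])
        have two : ∀ x y z : ZMod 2, x + y = x + z + (y + z) := by decide
        rcases u with r | i <;> rcases v with r' | j
        · have hrr : r ≠ r' := fun h => huv (by rw [h])
          have hc : ∀ r r' : Fin 6, r ≠ r' → π' (Sum.inl r) = π' (Sum.inl r') →
              (r = 0 ∧ r' = 1) ∨ (r = 1 ∧ r' = 0) ∨ (r = 2 ∧ r' = 3) ∨ (r = 3 ∧ r' = 2) ∨
              (r = 4 ∧ r' = 5) ∨ (r = 5 ∧ r' = 4) := by decide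
          change ε (g r) (g r') = κ r + _ + (κ r' + _)
          rcases hc r r' hrr hp with ⟨rfl, rfl⟩ | ⟨rfl, rfl⟩ | ⟨rfl, rfl⟩ | ⟨rfl, rfl⟩ |
            ⟨rfl, rfl⟩ | ⟨rfl, rfl⟩
          · rw [h1]; exact two _ _ _
          · rw [hs, h1, add_comm]; exact two _ _ _
          · rw [h2]; exact two _ _ _
          · rw [hs, h2, add_comm]; exact two _ _ _
          · rw [h3]; exact two _ _ _
          · rw [hs, h3, add_comm]; exact two _ _ _
        · exact absurd hp (hlr r j)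
        · exact absurd hp.symm (hlr r' i)
        · have hij : i ≠ j := fun h => huv (by rw [h])
          change ε (f i) (f j) = lam i + 1 + (lam j + 1)
          rw [hf i j hij]; exact two _ _ _)
  obtain ⟨u0, rfl⟩ := φ.surjective a0
  obtain ⟨u1, rfl⟩ := φ.surjective a1
  obtain ⟨u2, rfl⟩ := φ.surjective a2
  obtain ⟨u3, rfl⟩ := φ.surjective a3
  simp only [Equiv.symm_apply_apply] at l1 l2 l3 e01 e02 e03 e12 e13 e23
  have p3 := hπ u3
  have q0 : π' u0 = 0 := by omega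
  have q1 : π' u1 = 1 := by omega
  have q2 : π' u2 = 2 := by omega
  have q3 : π' u3 = 3 := by omega
  have c0 : ∀ u, π' u = 0 → ∃ r, u = Sum.inl r ∧ (r = 0 ∨ r = 1) := by decide
  have c1 : ∀ u, π' u = 1 → ∃ r, u = Sum.inl r ∧ (r = 2 ∨ r = 3) := by decide
  have c2 : ∀ u, π' u = 2 → ∃ r, u = Sum.inl r ∧ (r = 4 ∨ r = 5) := by decide
  have c3 : ∀ u, π' u = 3 → ∃ i, u = Sum.inr i := by decide
  obtain ⟨r0, rfl, hr0⟩ := c0 u0 q0
  obtain ⟨r1, rfl, hr1⟩ := c1 u1 q1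
  obtain ⟨r2, rfl, hr2⟩ := c2 u2 q2
  obtain ⟨i, rfl⟩ := c3 u3 q3
  have k0 : κ' (Sum.inl r0) = κ r0 := by rcases hr0 with rfl | rfl <;> simp [κ']
  have k1 : κ' (Sum.inl r1) = κ r1 + 1 := by rcases hr1 with rfl | rfl <;> simp [κ']
  have k2 : κ' (Sum.inl r2) = κ r2 := by rcases hr2 with rfl | rfl <;> simp [κ']
  have k3 : κ' (Sum.inr i) = lam i + 1 := rfl
  rw [k0, k1] at e01
  rw [k0, k2] at e02
  rw [k0, k3] at e03
  rw [k1, k2] at e12
  rw [k1, k3] at e13
  rw [k2, k3] at e23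
  have t1 : ∀ x y z : ZMod 2, x = y + (z + 1) + 1 → x = y + z := by decide
  have t2 : ∀ x y z : ZMod 2, x = y + 1 + z + 1 → x = y + z := by decide
  have t3 : ∀ x y z : ZMod 2, x = y + (z + 1) + 1 → x + z = y := by decide
  have t4 : ∀ x y z : ZMod 2, x = y + 1 + (z + 1) → x + z = y := by decide
  exact ⟨r0, r1, r2, hr0, hr1, hr2, t1 _ _ _ e01, e02, t2 _ _ _ e12, i, t3 _ _ _ e03,
    t4 _ _ _ e13, t3 _ _ _ e23⟩

theorem not_hyp (ε : Fin 10 → Fin 10 → ZMod 2) (hs : ∀ a b, ε a b = ε b a) : ¬ Hyp ε := by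
  intro H
  obtain ⟨a0, a1, a2, a3, l1, l2, l3, e01, e02, e03, e12, e13, e23⟩ :=
    H (fun a => a.val) (fun _ => 0) (fun a => a.isLt)
      (fun a b hab h => absurd (Fin.ext h) hab)
  simp only [add_zero, zero_add] at e01 e02 e03 e12 e13 e23
  let f : Fin 4 → Fin 10 := ![a0, a1, a2, a3]
  let lam : Fin 4 → ZMod 2 := ![0, 1, 0, 1]
  have hfinj : Function.Injective f := by
    have hm : StrictMono f := by
      rw [Fin.strictMono_iff_lt_succ]
      intro i
      fin_cases i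
      exacts [l1, l2, l3]
    exact hm.injective
  have hf : ∀ i j, i ≠ j → ε (f i) (f j) = lam i + lam j := by
    intro i j hij
    fin_cases i <;> fin_cases j <;>
      first
      | exact absurd rfl hij
      | (simp only [f, lam]; simp [hs a1 a0, hs a2 a0, hs a3 a0, hs a2 a1, hs a3 a1, hs a3 a2,
          e01, e02, e03, e12, e13, e23]; try decide)
  have hcard : ((Finset.univ.image f)ᶜ : Finset (Fin 10)).card = 6 := by
    rw [Finset.card_compl, Finset.card_image_of_injective _ hfinj]; simp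
  let g : Fin 6 → Fin 10 := Finset.orderEmbOfFin _ hcard
  have hginj : Function.Injective g := (Finset.orderEmbOfFin _ hcard).injective
  have hgf : ∀ r i, g r ≠ f i := by
    intro r i h
    have := Finset.orderEmbOfFin_mem _ hcard r
    rw [Finset.mem_compl] at this
    exact this (Finset.mem_image.2 ⟨i, Finset.mem_univ _, h.symm⟩)
  let s0 : Fin 6 → ZMod 2 := fun r => if r = 0 then 0 else ε (g 0) (g r)
  apply six_points (fun r r' => toB (ε (g r) (g r') + s0 r + s0 r'))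
    (fun a b => by rw [hs, add_right_comm]) _
    (fun i r => toB (ε (g r) (f i) + lam i + s0 r))
  · intro p hp k h1 h2 h3
    have hinj : Function.Injective (Sum.elim (g ∘ p) f) :=
      (hginj.comp hp).sumElim hfinj (fun r i => hgf _ _)
    have t1 : ∀ (x y z : ZMod 2) (b c : Bool),
        toB (x + y + z) = xor b c ↔ x = ofB b + y + (ofB c + z) := by decide
    have t2 : ∀ (x y : ZMod 2) (b : Bool), x = ofB b + y → toB (x + y) = b := by decide
    obtain ⟨r0, r1, r2, hr0, hr1, hr2, c1, c2, c3, i, n1, n2, n3⟩ :=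
      lemA ε hs H (g ∘ p) f hinj lam hf (fun r => ofB (k r) + s0 (p r))
        ((t1 _ _ _ _ _).1 h1) ((t1 _ _ _ _ _).1 h2) ((t1 _ _ _ _ _).1 h3)
    exact ⟨r0, r1, r2, hr0, hr1, hr2, (t1 _ _ _ _ _).2 c1, (t1 _ _ _ _ _).2 c2,
      (t1 _ _ _ _ _).2 c3, i, t2 _ _ _ n1, t2 _ _ _ n2, t2 _ _ _ n3⟩
  · intro a ha
    simp only [s0, ha, if_true, if_false]
    generalize ε (g 0) (g a) = x
    revert x; decide

end Vale.Agent.P052
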