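import Mathlib
import Vale.Agent.Lib.helper7.KyFan

/-! The parity (door in, door out) argument producing coherent sign functions. -/

namespace Vale.Agent.P052

open Vale.Agent.Lib.H7KyFan

variable {X : Type*} {ι : Type*} [DecidableEq ι]

lemma cups_perm {F G : List (X → ZMod 2)} (h : F.Perm G) : cups F = cups G := by
  induction h with
  | nil => rfl
  | cons f _ ih => simp only [cups, ih]
  | swap f g F => funext l; simp only [cups]; exact cup_comm _ _ _ _
  | trans _ _ ih1 ih2 => exact ih1.trans ih2

lemma cups_eq_zero {F : List (X → ZMod 2)} {f : X → ZMod 2} (hf : f ∈ F) :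
    ∀ l : List X, (∀ x ∈ l, f x = 0) → cups F l = 0 := by
  induction F with
  | nil => simp at hf
  | cons g F ih =>
    intro l hl
    rcases List.mem_cons.1 hf with rfl | hf
    · exact cup_eq_zero_of_left _ hl
    · exact cup_eq_zero_of_right _ (fun t ht _ => ih hf t (fun x hx => hl x (ht.subset hx)))

lemma alt_top (c : X → ι) (σ : X → ZMod 2) (g : ι → X → ZMod 2) (L : List ι) :
    ∀ (b : ZMod 2) (l : List X), l.length = L.length →
      (∀ (r : ℕ) (hr : r < L.length), ind c σ L[r] (b + r) = g L[r]) →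
      alt c σ L b l = cups (L.map g) l := by
  induction L with
  | nil => intro b l _ _; rfl
  | cons i L ih =>
    intro b l hl h
    simp only [alt, List.map_cons, cups]
    rw [alt_long c σ L b l (by simp at hl; omega), zero_add]
    have h0 := h 0 (by simp)
    simp only [List.getElem_cons_zero, Nat.cast_zero, add_zero] at h0
    rw [h0]
    apply cup_congr (fun _ _ => rfl)
    intro t _ ht
    apply ih
    · simp at hl; omega
    · intro r hr
      have := h (r + 1) (by simpa using hr)
      simp only [List.getElem_cons_succ] at this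
      rw [← this]; congr 1; push_cast; ring

/-- Every sign pattern appears an odd number of times. -/
theorem KF_pattern {M : ℕ} {η : ℝ} {z : List (List (Fin M → ℝ))} (hK : KF η z)
    (c : (Fin M → ℝ) → ι) (σ : (Fin M → ℝ) → ZMod 2) (L : List ι) (hL : L.Nodup)
    (hlen : ∀ s ∈ z, s.length = L.length)
    (hmem : ∀ x, ∑ i, |x i| = 1 → c x ∈ L)
    (hodd : ∀ x, ∑ i, |x i| = 1 → c (-x) = c x ∧ σ (-x) = σ x + 1)
    (hnc : ∀ x y, ∑ i, |x i| = 1 → ∑ i, |y i| = 1 → dist x y ≤ η → c x = c y → σ x = σ y)
    (κ : ι → ZMod 2) : ev z (cups (L.map fun i => ind c σ i (κ i))) = 1 := by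
  have h := hK.alt_eq c (fun x => σ x + κ (c x) + (L.idxOf (c x) : ℕ)) L hL hmem
    (fun x hx => by
      obtain ⟨h1, h2⟩ := hodd x hx
      refine ⟨h1, ?_⟩
      rw [h1, h2]; ring)
    (fun x y hx hy hd hc => by rw [hnc x y hx hy hd hc, hc]) 0
  rw [← h]
  apply ev_congr
  intro s hs
  symm
  apply alt_top _ _ _ _ _ _ (hlen s hs)
  intro r hr
  funext x
  simp only [ind]
  by_cases hx : c x = L[r]
  · have : L.idxOf L[r] = r := List.Nodup.idxOf_getElem hL r hr
    simp only [hx, true_and, this, zero_add]
    congr 1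
    generalize σ x = u; generalize κ L[r] = v; generalize (r : ZMod 2) = w
    apply propext
    revert u v w; decide
  · simp [hx]

lemma cup_rest (c : X → ι) (σ : X → ZMod 2) (R : List ι) (hR : R.Nodup) :
    ∀ l : List X, (∀ x ∈ l, ∀ y ∈ l, c x = c y → σ x = σ y) →
      cup (fun x => if c x ∈ R then 1 else 0) (cups (R.map fun j => ind c σ j 1)) l = 0 := by
  induction R with
  | nil => intro l _; simp [cup_zero_left]
  | cons i R ih =>
    intro l hl
    obtain ⟨hi, hR'⟩ := List.nodup_cons.1 hR
    have hu : (fun x => if c x ∈ i :: R then (1 : ZMod 2) else 0) =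
        fun x => (ind c σ i 1 x + ind c σ i 0 x) + (if c x ∈ R then 1 else 0) := by
      funext x
      by_cases h : c x = i
      · simp only [ind, h, List.mem_cons, true_or, if_true, true_and, hi, if_false]
        generalize σ x = u; revert u; decide
      · simp [ind, h]
    rw [hu]
    simp only [List.map_cons, cups]
    rw [cup_add_left, cup_add_left, cup_self, cup_orth, cup_comm, cup_eq_zero_of_right]
    · ring
    · intro t ht _
      exact ih hR' t (fun x hx y hy => hl x (ht.subset hx) y (ht.subset hy))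
    · intro x hx y hy
      simp only [ind]
      split_ifs with h1 h2 <;> try simp
      have := hl x hx y hy (h1.1.trans h2.1.symm)
      rw [h1.2, h2.2] at this
      exact absurd this (by decide)

lemma door (c : X → ι) (σ : X → ZMod 2) (a b : ι) (R : List ι) (hN : (a :: b :: R).Nodup)
    (g : X → ZMod 2) (s : List X) (hnc : ∀ x ∈ s, ∀ y ∈ s, c x = c y → σ x = σ y)
    (hall : ∀ x ∈ s, c x ∈ a :: b :: R)
    (hconst : (∀ j ∈ R, ∃ y ∈ s, c y = j ∧ σ y = 1) → ∀ x ∈ s, ∀ y ∈ s,
      c x = a → σ x = 0 → c y = a → σ y = 0 → g x = g y) :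
    cob (cup (fun x => g x * ind c σ a 0 x) (cups (R.map fun j => ind c σ j 1))) s =
      cup (ind c σ b 1) (cup (fun x => g x * ind c σ a 0 x)
        (cups (R.map fun j => ind c σ j 1))) s +
      cup (ind c σ b 0) (cup (fun x => g x * ind c σ a 0 x)
        (cups (R.map fun j => ind c σ j 1))) s := by
  set Φ := cups (R.map fun j => ind c σ j 1) with hΦ
  simp only [List.nodup_cons, List.mem_cons, not_or] at hN
  obtain ⟨⟨hab, haR⟩, hbR, hR⟩ := hN
  have h1 : cob (cup (fun x => g x * ind c σ a 0 x) Φ) s =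
      cup (fun x => ((ind c σ b 1 x + ind c σ b 0 x) + (ind c σ a 0 x + ind c σ a 1 x)) +
        (if c x ∈ R then 1 else 0)) (cup (fun x => g x * ind c σ a 0 x) Φ) s := by
    apply cup_congr _ (fun _ _ _ => rfl)
    intro x hx
    have := hall x hx
    simp only [List.mem_cons] at this
    rcases this with h | h | h
    · simp only [ind, h, hab, haR, false_and, true_and, if_false]
      generalize σ x = u; revert u; decide
    · simp only [ind, h, Ne.symm hab, hbR, false_and, true_and, if_false]
      generalize σ x = u; revert u; decide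
    · have h1 : c x ≠ a := fun h' => haR (h' ▸ h)
      have h2 : c x ≠ b := fun h' => hbR (h' ▸ h)
      simp [ind, h, h1, h2]
  have h2 : cup (fun x => if c x ∈ R then 1 else 0)
      (cup (fun x => g x * ind c σ a 0 x) Φ) s = 0 := by
    rw [cup_comm]
    apply cup_eq_zero_of_right
    intro t ht _
    exact cup_rest c σ R hR t (fun x hx y hy => hnc x (ht.subset hx) y (ht.subset hy))
  have h3 : cup (ind c σ a 1) (cup (fun x => g x * ind c σ a 0 x) Φ) s = 0 := by
    apply cup_orth
    intro x hx y hy
    simp only [ind]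
    split_ifs with h1 h2 <;> try simp
    have := hnc x hx y hy (h1.1.trans h2.1.symm)
    rw [h1.2, h2.2] at this
    exact absurd this (by decide)
  have h4 : cup (ind c σ a 0) (cup (fun x => g x * ind c σ a 0 x) Φ) s = 0 := by
    by_cases hR1 : ∀ j ∈ R, ∃ y ∈ s, c y = j ∧ σ y = 1
    · by_cases hex : ∃ x ∈ s, c x = a ∧ σ x = 0
      · obtain ⟨x0, hx0, hc0, hs0⟩ := hex
        have : cup (ind c σ a 0) (cup (fun x => g x * ind c σ a 0 x) Φ) s =
            cup (ind c σ a 0) (fun t => g x0 * cup (ind c σ a 0) Φ t) s := by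
          apply cup_congr (fun _ _ => rfl)
          intro t ht _
          rw [← cup_mul_left]
          apply cup_congr _ (fun _ _ _ => rfl)
          intro x hx
          by_cases hx' : c x = a ∧ σ x = 0
          · rw [hconst hR1 x (ht.subset hx) x0 hx0 hx'.1 hx'.2 hc0 hs0]
          · simp [ind, hx']
        rw [this, cup_mul_right, cup_self, mul_zero]
      · apply cup_eq_zero_of_left
        intro x hx
        have : ¬ (c x = a ∧ σ x = 0) := fun h => hex ⟨x, hx, h⟩
        simp [ind, this]
    · push Not at hR1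
      obtain ⟨j, hj, hj'⟩ := hR1
      apply cup_eq_zero_of_right
      intro t ht _
      apply cup_eq_zero_of_right
      intro t' ht' _
      apply cups_eq_zero (f := ind c σ j 1) (List.mem_map.2 ⟨j, hj, rfl⟩)
      intro x hx
      have := hj' x (ht.subset (ht'.subset hx))
      simp only [ind]
      rw [if_neg (fun h => this h.1 h.2)]
  rw [h1, cup_add_left, cup_add_left, cup_add_left, cup_add_left, h2, h3, h4]
  ring

lemma swap_pair (c : X → ι) (σ : X → ZMod 2) (a b : ι) (R : List ι)
    (g g' : X → ZMod 2) (s : List X)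
    (hconst : (∀ j ∈ R, ∃ y ∈ s, c y = j ∧ σ y = 1) → ∀ x ∈ s, ∀ y ∈ s,
      c x = a → σ x = 0 → c y = b → σ y = 0 → g x = g' y) :
    cup (ind c σ b 0) (cup (fun x => g x * ind c σ a 0 x)
        (cups (R.map fun j => ind c σ j 1))) s =
    cup (ind c σ a 0) (cup (fun x => g' x * ind c σ b 0 x)
        (cups (R.map fun j => ind c σ j 1))) s := by
  set Φ := cups (R.map fun j => ind c σ j 1) with hΦ
  by_cases hR1 : ∀ j ∈ R, ∃ y ∈ s, c y = j ∧ σ y = 1
  · by_cases hex : ∃ x ∈ s, c x = a ∧ σ x = 0
    · by_cases hey : ∃ y ∈ s, c y = b ∧ σ y = 0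
      · obtain ⟨x0, hx0, hc0, hs0⟩ := hex
        obtain ⟨y0, hy0, hc1, hs1⟩ := hey
        have e1 : cup (ind c σ b 0) (cup (fun x => g x * ind c σ a 0 x) Φ) s =
            cup (ind c σ b 0) (fun t => g' y0 * cup (ind c σ a 0) Φ t) s := by
          apply cup_congr (fun _ _ => rfl)
          intro t ht _
          rw [← cup_mul_left]
          apply cup_congr _ (fun _ _ _ => rfl)
          intro x hx
          by_cases hx' : c x = a ∧ σ x = 0
          · rw [hconst hR1 x (ht.subset hx) y0 hy0 hx'.1 hx'.2 hc1 hs1]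
          · simp [ind, hx']
        have e2 : cup (ind c σ a 0) (cup (fun x => g' x * ind c σ b 0 x) Φ) s =
            cup (ind c σ a 0) (fun t => g x0 * cup (ind c σ b 0) Φ t) s := by
          apply cup_congr (fun _ _ => rfl)
          intro t ht _
          rw [← cup_mul_left]
          apply cup_congr _ (fun _ _ _ => rfl)
          intro x hx
          by_cases hx' : c x = b ∧ σ x = 0
          · rw [hconst hR1 x0 hx0 x (ht.subset hx) hc0 hs0 hx'.1 hx'.2]
          · simp [ind, hx']
        rw [e1, e2, cup_mul_right, cup_mul_right, cup_comm,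
          hconst hR1 x0 hx0 y0 hy0 hc0 hs0 hc1 hs1]
      · have hz : ∀ x ∈ s, ind c σ b 0 x = 0 := by
          intro x hx
          have : ¬ (c x = b ∧ σ x = 0) := fun h => hey ⟨x, hx, h⟩
          simp [ind, this]
        rw [cup_eq_zero_of_left _ hz, cup_eq_zero_of_right]
        intro t ht _
        apply cup_eq_zero_of_left
        intro x hx
        rw [hz x (ht.subset hx), mul_zero]
    · have hz : ∀ x ∈ s, ind c σ a 0 x = 0 := by
        intro x hx
        have : ¬ (c x = a ∧ σ x = 0) := fun h => hex ⟨x, hx, h⟩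
        simp [ind, this]
      rw [cup_eq_zero_of_left _ hz, cup_eq_zero_of_right]
      intro t ht _
      apply cup_eq_zero_of_left
      intro x hx
      rw [hz x (ht.subset hx), mul_zero]
  · push Not at hR1
    obtain ⟨j, hj, hj'⟩ := hR1
    have hΦ0 : ∀ t : List X, t.Sublist s → Φ t = 0 := by
      intro t ht
      apply cups_eq_zero (f := ind c σ j 1) (List.mem_map.2 ⟨j, hj, rfl⟩)
      intro x hx
      have := hj' x (ht.subset hx)
      simp only [ind]
      rw [if_neg (fun h => this h.1 h.2)]
    rw [cup_eq_zero_of_right, cup_eq_zero_of_right] <;>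
    · intro t ht _
      apply cup_eq_zero_of_right
      intro t' ht' _
      exact hΦ0 t' (ht'.trans ht)

/-- The averaged sign function. -/
def avg (c : X → ι) (σ : X → ZMod 2) (z : List (List X)) (L : List ι) (a : ι)
    (g : X → ZMod 2) : ZMod 2 :=
  ev z (cup (fun x => g x * ind c σ a 0 x) (cups ((L.erase a).map fun j => ind c σ j 1)))

lemma avg_add (c : X → ι) (σ : X → ZMod 2) (z : List (List X)) (L : List ι) (a : ι)
    (g g' : X → ZMod 2) :
    avg c σ z L a (fun x => g x + g' x) = avg c σ z L a g + avg c σ z L a g' := by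
  simp only [avg]
  rw [← ev_add]
  apply ev_congr
  intro s _
  rw [← cup_add_left]
  simp only [add_mul]

lemma avg_congr (c : X → ι) (σ : X → ZMod 2) (z : List (List X)) (L : List ι) (a : ι)
    (g g' : X → ZMod 2) (h : ∀ s ∈ z, ∀ x ∈ s, c x = a → g x = g' x) :
    avg c σ z L a g = avg c σ z L a g' := by
  simp only [avg]
  apply ev_congr
  intro s hs
  apply cup_congr _ (fun _ _ _ => rfl)
  intro x hx
  by_cases hx' : c x = a
  · rw [h s hs x hx hx']
  · simp [ind, hx']

lemma avg_pair (c : X → ι) (σ : X → ZMod 2) (z : List (List X)) (L : List ι) (hL : L.Nodup)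
    (hcyc : ∀ φ, ev z (cob φ) = 0)
    (hnc : ∀ s ∈ z, ∀ x ∈ s, ∀ y ∈ s, c x = c y → σ x = σ y)
    (hall : ∀ s ∈ z, ∀ x ∈ s, c x ∈ L) (a b : ι) (ha : a ∈ L) (hb : b ∈ L) (hab : a ≠ b)
    (G : X → ZMod 2)
    (hconst : ∀ s ∈ z, (∀ j ∈ L, j ≠ a → j ≠ b → ∃ y ∈ s, c y = j ∧ σ y = 1) →
      ∀ x ∈ s, ∀ y ∈ s, σ x = 0 → σ y = 0 → G x = G y) :
    avg c σ z L a G = avg c σ z L b G := by
  have key : ∀ a b : ι, a ∈ L → b ∈ L → a ≠ b →
      (∀ s ∈ z, (∀ j ∈ L, j ≠ a → j ≠ b → ∃ y ∈ s, c y = j ∧ σ y = 1) →
        ∀ x ∈ s, ∀ y ∈ s, σ x = 0 → σ y = 0 → G x = G y) →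
      avg c σ z L a G = ev z (cup (ind c σ b 0) (cup (fun x => G x * ind c σ a 0 x)
        (cups (((L.erase a).erase b).map fun j => ind c σ j 1)))) := by
    intro a b ha hb hab hconst
    have hb' : b ∈ L.erase a := (List.mem_erase_of_ne hab.symm).2 hb
    have p1 : L.Perm (a :: L.erase a) := List.perm_cons_erase ha
    have p2 : (L.erase a).Perm (b :: (L.erase a).erase b) := List.perm_cons_erase hb'
    have p3 : L.Perm (a :: b :: (L.erase a).erase b) := p1.trans (p2.cons a)
    have hN := p3.nodup_iff.1 hL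
    have h0 := hcyc (cup (fun x => G x * ind c σ a 0 x)
      (cups (((L.erase a).erase b).map fun j => ind c σ j 1)))
    rw [ev_congr (fun s hs => door c σ a b _ hN G s (hnc s hs)
      (fun x hx => p3.subset (hall s hs x hx)) (fun h x hx y hy _ h1 _ h2 => by
        refine hconst s hs (fun j hj hja hjb => h j ?_) x hx y hy h1 h2
        have := p3.subset hj
        simpa [hja, hjb] using this)), ev_add] at h0
    simp only [avg]
    rw [cups_perm (p2.map _)]
    simp only [List.map_cons, cups]
    rw [ev_congr (fun s _ => cup_comm _ _ s _)]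
    revert h0
    generalize ev z _ = u
    generalize ev z _ = v
    revert u v; decide
  rw [key a b ha hb hab hconst, key b a hb ha hab.symm
    (fun s hs h => hconst s hs (fun j hj h1 h2 => h j hj h2 h1)), List.erase_comm b a]
  apply ev_congr
  intro s hs
  apply swap_pair
  intro h x hx y hy _ h1 _ h2
  refine hconst s hs (fun j hj hja hjb => h j ?_) x hx y hy h1 h2
  exact (List.mem_erase_of_ne hjb).2 ((List.mem_erase_of_ne hja).2 hj)

end Vale.Agent.P052
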