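import Mathlib

/-! Quadratic forms on four-dimensional Euclidean space and their maximisers on the sphere. -/

namespace Vale.Agent.P052

open scoped RealInnerProductSpace

abbrev E4 := EuclideanSpace ℝ (Fin 4)

/-- The quadratic form with coefficient vector `a`. -/
def qf (a : Fin 10 → ℝ) (x : E4) : ℝ :=
  a 0 * (x 0 * x 0) + a 1 * (x 1 * x 1) + a 2 * (x 2 * x 2) + a 3 * (x 3 * x 3) +
    2 * (a 4 * (x 0 * x 1) + a 5 * (x 0 * x 2) + a 6 * (x 0 * x 3) + a 7 * (x 1 * x 2) +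
      a 8 * (x 1 * x 3) + a 9 * (x 2 * x 3))

lemma qf_par (a : Fin 10 → ℝ) (α β : ℝ) (x y : E4) :
    qf a (α • x + β • y) + qf a (α • x - β • y) = 2 * α ^ 2 * qf a x + 2 * β ^ 2 * qf a y := by
  simp only [qf, PiLp.add_apply, PiLp.sub_apply, PiLp.smul_apply, smul_eq_mul]; ring

lemma qf_O (a : Fin 10 → ℝ) (t : ℝ) (v y : E4) :
    qf a (v - t • y) - qf a (y - t • v) = (1 - t ^ 2) * (qf a v - qf a y) := by
  simp only [qf, PiLp.sub_apply, PiLp.smul_apply, smul_eq_mul]; ring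

lemma qf_smul (a : Fin 10 → ℝ) (t : ℝ) (x : E4) : qf a (t • x) = t ^ 2 * qf a x := by
  simp only [qf, PiLp.smul_apply, smul_eq_mul]; ring

lemma qf_neg (a : Fin 10 → ℝ) (x : E4) : qf (-a) x = - qf a x := by
  simp only [qf, Pi.neg_apply]; ring

lemma qf_cont (a : Fin 10 → ℝ) : Continuous (qf a) := by
  unfold qf; fun_prop

lemma qf_lip {a a' : Fin 10 → ℝ} {η : ℝ} (h : dist a a' ≤ η) {x : E4} (hx : ‖x‖ = 1) :
    |qf a x - qf a' x| ≤ 16 * η := by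
  have hd : ∀ i, |a i - a' i| ≤ η := fun i => by
    rw [← Real.dist_eq]; exact (dist_le_pi_dist a a' i).trans h
  have hxi : ∀ i, |x i| ≤ 1 := fun i => by
    rw [← hx, ← Real.norm_eq_abs]; exact PiLp.norm_apply_le x i
  have key : ∀ (k : Fin 10) (i j : Fin 4), |(a k - a' k) * (x i * x j)| ≤ η := by
    intro k i j
    rw [abs_mul, abs_mul]
    have h1 : |x i| * |x j| ≤ 1 := mul_le_one₀ (hxi i) (abs_nonneg _) (hxi j)
    have h2 := hd k
    nlinarith [abs_nonneg (a k - a' k), mul_nonneg (abs_nonneg (x i)) (abs_nonneg (x j))]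
  have k0 := abs_le.1 (key 0 0 0)
  have k1 := abs_le.1 (key 1 1 1)
  have k2 := abs_le.1 (key 2 2 2)
  have k3 := abs_le.1 (key 3 3 3)
  have k4 := abs_le.1 (key 4 0 1)
  have k5 := abs_le.1 (key 5 0 2)
  have k6 := abs_le.1 (key 6 0 3)
  have k7 := abs_le.1 (key 7 1 2)
  have k8 := abs_le.1 (key 8 1 3)
  have k9 := abs_le.1 (key 9 2 3)
  have : qf a x - qf a' x = (a 0 - a' 0) * (x 0 * x 0) + (a 1 - a' 1) * (x 1 * x 1) +
      (a 2 - a' 2) * (x 2 * x 2) + (a 3 - a' 3) * (x 3 * x 3) +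
      2 * ((a 4 - a' 4) * (x 0 * x 1) + (a 5 - a' 5) * (x 0 * x 2) + (a 6 - a' 6) * (x 0 * x 3) +
      (a 7 - a' 7) * (x 1 * x 2) + (a 8 - a' 8) * (x 1 * x 3) + (a 9 - a' 9) * (x 2 * x 3)) := by
    simp only [qf]; ring
  rw [this, abs_le]
  constructor <;> linarith [k0.1, k0.2, k1.1, k1.2, k2.1, k2.2, k3.1, k3.2, k4.1, k4.2, k5.1,
    k5.2, k6.1, k6.2, k7.1, k7.2, k8.1, k8.2, k9.1, k9.2]

lemma norm_sq_E4 (x : E4) : ‖x‖ ^ 2 = x 0 ^ 2 + x 1 ^ 2 + x 2 ^ 2 + x 3 ^ 2 := by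
  rw [EuclideanSpace.norm_sq_eq, Fin.sum_univ_four]
  simp

lemma inner_E4 (x y : E4) : ⟪x, y⟫ = x 0 * y 0 + x 1 * y 1 + x 2 * y 2 + x 3 * y 3 := by
  rw [PiLp.inner_apply, Fin.sum_univ_four]
  simp; ring

lemma qf_lower {a : Fin 10 → ℝ} (ha : ∑ i, |a i| = 1) {μ : ℝ}
    (h : ∀ x : E4, |qf a x| ≤ μ * ‖x‖ ^ 2) : 1 / 10 ≤ μ := by
  have t : ∀ p q r s : ℝ, |qf a !₂[p, q, r, s]| ≤ μ * (p ^ 2 + q ^ 2 + r ^ 2 + s ^ 2) := by
    intro p q r s
    have := h !₂[p, q, r, s]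
    rw [norm_sq_E4] at this
    simpa using this
  have h0 := abs_le.1 (t 1 0 0 0)
  have h1 := abs_le.1 (t 0 1 0 0)
  have h2 := abs_le.1 (t 0 0 1 0)
  have h3 := abs_le.1 (t 0 0 0 1)
  have h4 := abs_le.1 (t 1 1 0 0)
  have h4' := abs_le.1 (t 1 (-1) 0 0)
  have h5 := abs_le.1 (t 1 0 1 0)
  have h5' := abs_le.1 (t 1 0 (-1) 0)
  have h6 := abs_le.1 (t 1 0 0 1)
  have h6' := abs_le.1 (t 1 0 0 (-1))
  have h7 := abs_le.1 (t 0 1 1 0)
  have h7' := abs_le.1 (t 0 1 (-1) 0)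
  have h8 := abs_le.1 (t 0 1 0 1)
  have h8' := abs_le.1 (t 0 1 0 (-1))
  have h9 := abs_le.1 (t 0 0 1 1)
  have h9' := abs_le.1 (t 0 0 1 (-1))
  simp [qf] at h0 h1 h2 h3 h4 h4' h5 h5' h6 h6' h7 h7' h8 h8' h9 h9'
  have b : ∀ i, |a i| ≤ μ := by
    intro i
    rw [abs_le]
    fin_cases i <;> simp <;> constructor <;>
      linarith [h0.1, h0.2, h1.1, h1.2, h2.1, h2.2, h3.1, h3.2, h4.1, h4.2, h5.1, h5.2, h6.1, h6.2,
        h7.1, h7.2, h8.1, h8.2, h9.1, h9.2, h4'.1, h4'.2, h5'.1, h5'.2, h6'.1, h6'.2,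
        h7'.1, h7'.2, h8'.1, h8'.2, h9'.1, h9'.2]
  have : ∑ i, |a i| ≤ ∑ _i : Fin 10, μ := Finset.sum_le_sum fun i _ => b i
  rw [ha] at this
  simp at this
  linarith

/-- A maximiser on the unit sphere. -/
noncomputable def umax (f : E4 → ℝ) : E4 :=
  Classical.epsilon fun u => ‖u‖ = 1 ∧ ∀ x, ‖x‖ = 1 → f x ≤ f u

lemma umax_spec {f : E4 → ℝ} (hf : Continuous f) :
    ‖umax f‖ = 1 ∧ ∀ x, ‖x‖ = 1 → f x ≤ f (umax f) := by
  apply Classical.epsilon_spec (p := fun u => ‖u‖ = 1 ∧ ∀ x, ‖x‖ = 1 → f x ≤ f u)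
  obtain ⟨u, hu, h⟩ := (isCompact_sphere (0 : E4) 1).exists_isMaxOn
    (NormedSpace.sphere_nonempty.2 zero_le_one) hf.continuousOn
  exact ⟨u, by simpa using hu, fun x hx => h (by simpa using hx)⟩

/-- The chosen maximiser of the absolute value of the form. -/
noncomputable def up (a : Fin 10 → ℝ) : E4 := umax fun x => |qf a x|

/-- The operator norm of the form. -/
noncomputable def mu (a : Fin 10 → ℝ) : ℝ := |qf a (up a)|

lemma up_norm (a : Fin 10 → ℝ) : ‖up a‖ = 1 := (umax_spec (qf_cont a).abs).1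

lemma up_neg (a : Fin 10 → ℝ) : up (-a) = up a := by
  simp only [up, qf_neg, abs_neg]

lemma le_mu (a : Fin 10 → ℝ) {x : E4} (hx : ‖x‖ = 1) : |qf a x| ≤ mu a :=
  (umax_spec (qf_cont a).abs).2 x hx

lemma le_mu' (a : Fin 10 → ℝ) (x : E4) : |qf a x| ≤ mu a * ‖x‖ ^ 2 := by
  by_cases hx : x = 0
  · subst hx; simp [qf]
  · have hn : 0 < ‖x‖ := norm_pos_iff.2 hx
    have h1 : ‖(‖x‖⁻¹ • x : E4)‖ = 1 := by
      rw [norm_smul, norm_inv, norm_norm, inv_mul_cancel₀ hn.ne']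
    have h2 := le_mu a h1
    rw [qf_smul, abs_mul, abs_of_nonneg (by positivity)] at h2
    have : |qf a x| = (‖x‖⁻¹ ^ 2 * |qf a x|) * ‖x‖ ^ 2 := by field_simp
    rw [this]
    gcongr

lemma mu_lower {a : Fin 10 → ℝ} (ha : ∑ i, |a i| = 1) : 1 / 10 ≤ mu a :=
  qf_lower ha (le_mu' a)

/-- The sign of the form at its maximiser. -/
noncomputable def sg (a : Fin 10 → ℝ) : ZMod 2 := if qf a (up a) < 0 then 1 else 0

lemma sg_neg {a : Fin 10 → ℝ} (ha : ∑ i, |a i| = 1) : sg (-a) = sg a + 1 := by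
  have h := mu_lower ha
  have h0 : qf a (up a) ≠ 0 := by
    intro h0; simp [mu, h0] at h; linarith
  simp only [sg, up_neg, qf_neg]
  rcases lt_or_gt_of_ne h0 with h1 | h1
  · rw [if_neg (by linarith), if_pos h1]; decide
  · rw [if_pos (by linarith), if_neg (by linarith)]; decide

lemma pos_est {a0 a : Fin 10 → ℝ} {η : ℝ} (h : dist a a0 ≤ η) (hs : sg a = 0) :
    mu a0 - 32 * η ≤ qf a0 (up a) := by
  have h1 : 0 ≤ qf a (up a) := by
    by_contra hc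
    simp only [sg, if_pos (not_le.1 hc)] at hs
    exact absurd hs (by decide)
  have h2 := abs_le.1 (qf_lip h (up_norm a))
  have h3 := qf_lip h (up_norm a0)
  have h4 := le_mu a (up_norm a0)
  have h5 : mu a = qf a (up a) := abs_of_nonneg h1
  have h6 := abs_sub_abs_le_abs_sub (qf a0 (up a0)) (qf a (up a0))
  rw [abs_sub_comm] at h3
  simp only [mu] at *
  linarith [h2.2]

lemma neg_est {a0 a : Fin 10 → ℝ} {η : ℝ} (h : dist a a0 ≤ η) (hs : sg a = 1) :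
    qf a0 (up a) ≤ - mu a0 + 32 * η := by
  have h1 : qf a (up a) < 0 := by
    by_contra hc
    simp only [sg, if_neg hc] at hs
    exact absurd hs (by decide)
  have h2 := abs_le.1 (qf_lip h (up_norm a))
  have h3 := qf_lip h (up_norm a0)
  have h4 := le_mu a (up_norm a0)
  have h5 : mu a = - qf a (up a) := abs_of_neg h1
  have h6 := abs_sub_abs_le_abs_sub (qf a0 (up a0)) (qf a (up a0))
  rw [abs_sub_comm] at h3
  simp only [mu] at *
  linarith [h2.1]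

lemma orth_est (a : Fin 10 → ℝ) {v y : E4} (hv : ‖v‖ = 1) (hy : ‖y‖ = 1) {k1 k2 : ℝ}
    (h1 : mu a - k1 ≤ qf a v) (h2 : qf a y ≤ - mu a + k2) (hk : 0 ≤ k1 + k2) :
    mu a * ⟪v, y⟫ ^ 2 ≤ k1 + k2 := by
  set p := ⟪v, y⟫ with hp
  have hp1 : |p| ≤ 1 := by
    have := abs_real_inner_le_norm v y
    rwa [hv, hy, mul_one] at this
  have n1 : ‖v - (p / 2) • y‖ ^ 2 = 1 - 3 / 4 * p ^ 2 := by
    rw [norm_sub_sq_real, inner_smul_right, norm_smul, hv, hy, ← hp, Real.norm_eq_abs, mul_one,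
      sq_abs]; ring
  have n2 : ‖y - (p / 2) • v‖ ^ 2 = 1 - 3 / 4 * p ^ 2 := by
    rw [norm_sub_sq_real, inner_smul_right, norm_smul, hv, hy, real_inner_comm, ← hp,
      Real.norm_eq_abs, mul_one, sq_abs]; ring
  have b1 := (abs_le.1 (le_mu' a (v - (p / 2) • y))).2
  have b2 := (abs_le.1 (le_mu' a (y - (p / 2) • v))).1
  rw [n1] at b1
  rw [n2] at b2
  have e := qf_O a (p / 2) v y
  have hp2 : p ^ 2 ≤ 1 := by nlinarith [abs_nonneg p, sq_abs p]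
  have h3 : (1 - (p / 2) ^ 2) * (2 * mu a - (k1 + k2)) ≤
      (1 - (p / 2) ^ 2) * (qf a v - qf a y) := by
    apply mul_le_mul_of_nonneg_left <;> nlinarith
  nlinarith [sq_nonneg p]

lemma span_est (a : Fin 10 → ℝ) (u u' : E4) (α β : ℝ) :
    mu a * ‖α • u + β • u'‖ ^ 2 - qf a (α • u + β • u') ≤
      2 * α ^ 2 * (mu a * ‖u‖ ^ 2 - qf a u) + 2 * β ^ 2 * (mu a * ‖u'‖ ^ 2 - qf a u') := by
  have h1 := qf_par a α β u u'
  have h2 := (abs_le.1 (le_mu' a (α • u - β • u'))).2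
  have h3 : ‖α • u + β • u'‖ ^ 2 + ‖α • u - β • u'‖ ^ 2 =
      2 * α ^ 2 * ‖u‖ ^ 2 + 2 * β ^ 2 * ‖u'‖ ^ 2 := by
    rw [norm_add_sq_real, norm_sub_sq_real, norm_smul, norm_smul, mul_pow, mul_pow,
      Real.norm_eq_abs, Real.norm_eq_abs, sq_abs, sq_abs]; ring
  have h4 : mu a * ‖α • u + β • u'‖ ^ 2 = mu a * (2 * α ^ 2 * ‖u‖ ^ 2 + 2 * β ^ 2 * ‖u'‖ ^ 2) -
      mu a * ‖α • u - β • u'‖ ^ 2 := by rw [← h3]; ring
  rw [h4]; linarith

end Vale.Agent.P052
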