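import Mathlib
import Vale.Agent.P052.Quad
import Vale.Agent.P052.Parity
import Vale.Agent.P052.Finite

/-! No even ten-colouring of the three-sphere keeps each colour class away from orthogonality. -/

namespace Vale.Agent.P052

open scoped RealInnerProductSpace
open Vale.Agent.Lib.H7KyFan

/-- The sign bit of an inner product. -/
noncomputable def sb (x y : E4) : ZMod 2 := if ⟪x, y⟫ < 0 then 1 else 0

lemma sb_neg_left {x y : E4} (h : ⟪x, y⟫ ≠ 0) : sb (-x) y = sb x y + 1 := by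
  simp only [sb, inner_neg_left]
  rcases lt_or_gt_of_ne h with h1 | h1
  · rw [if_neg (by linarith), if_pos h1]; decide
  · rw [if_pos (by linarith), if_neg (by linarith)]; decide

lemma sb_neg_right {x y : E4} (h : ⟪x, y⟫ ≠ 0) : sb x (-y) = sb x y + 1 := by
  simp only [sb, inner_neg_right]
  rcases lt_or_gt_of_ne h with h1 | h1
  · rw [if_neg (by linarith), if_pos h1]; decide
  · rw [if_pos (by linarith), if_neg (by linarith)]; decide

lemma sb_eq {δ : ℝ} {x y x' y' : E4} (hy : ‖y‖ = 1) (hx' : ‖x'‖ = 1) (h1 : δ ≤ |⟪x, y⟫|)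
    (h2 : δ ≤ |⟪x', y'⟫|) (h3 : ‖x - x'‖ + ‖y - y'‖ < 2 * δ) : sb x y = sb x' y' := by
  have h4 : |⟪x, y⟫ - ⟪x', y'⟫| ≤ ‖x - x'‖ + ‖y - y'‖ := by
    have : ⟪x, y⟫ - ⟪x', y'⟫ = ⟪x - x', y⟫ + ⟪x', y - y'⟫ := by
      rw [inner_sub_left, inner_sub_right]; ring
    rw [this]
    refine (abs_add_le _ _).trans (add_le_add ?_ ?_)
    · simpa [hy] using abs_real_inner_le_norm (x - x') y
    · simpa [hx'] using abs_real_inner_le_norm x' (y - y')
  have h5 := abs_le.1 h4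
  simp only [sb]
  by_cases a : ⟪x, y⟫ < 0 <;> by_cases b : ⟪x', y'⟫ < 0
  · simp [a, b]
  · rw [abs_of_neg a] at h1; rw [abs_of_nonneg (not_lt.1 b)] at h2; linarith [h5.1]
  · rw [abs_of_neg b] at h2; rw [abs_of_nonneg (not_lt.1 a)] at h1; linarith [h5.2]
  · simp [a, b]

section

variable {col : E4 → Fin 10} {δ : ℝ}

lemma two_colour (hδ : 0 < δ)
    (hsep : ∀ x y : E4, ‖x‖ = 1 → ‖y‖ = 1 → col x = col y → δ ≤ |⟪x, y⟫|)
    {e1 e2 : E4} (h1 : ‖e1‖ = 1) (h2 : ‖e2‖ = 1) (h12 : ⟪e1, e2⟫ = 0) (a b : Fin 10)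
    (h : ∀ θ : ℝ, col (Real.cos θ • e1 + Real.sin θ • e2) = a ∨
      col (Real.cos θ • e1 + Real.sin θ • e2) = b) : False := by
  set γ : ℝ → E4 := fun θ => Real.cos θ • e1 + Real.sin θ • e2 with hγ
  have hin : ∀ θ θ', ⟪γ θ, γ θ'⟫ = Real.cos (θ - θ') := by
    intro θ θ'
    simp only [hγ, inner_add_left, inner_add_right, inner_smul_left, inner_smul_right,
      real_inner_self_eq_norm_sq, h1, h2, h12, real_inner_comm e1 e2, Real.cos_sub]
    simp; ring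
  have hn : ∀ θ, ‖γ θ‖ = 1 := by
    intro θ
    have := hin θ θ
    rw [real_inner_self_eq_norm_sq, sub_self, Real.cos_zero] at this
    nlinarith [norm_nonneg (γ θ)]
  have hne : ∀ θ θ', |Real.cos (θ - θ')| < δ → col (γ θ) ≠ col (γ θ') := by
    intro θ θ' hc he
    have := hsep _ _ (hn θ) (hn θ') he
    rw [hin] at this; linarith
  have hstep : ∀ θ t, |t| < δ → col (γ (θ + t)) = col (γ θ) := by
    intro θ t ht
    have a1 := hne (θ + Real.pi / 2) θ (by simpa using hδ)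
    have a2 := hne (θ + Real.pi / 2) (θ + t) (by
      have : θ + Real.pi / 2 - (θ + t) = Real.pi / 2 - t := by ring
      rw [this, Real.cos_pi_div_two_sub]
      exact lt_of_le_of_lt Real.abs_sin_le_abs ht)
    have b1 := h (θ + Real.pi / 2)
    have b2 := h θ
    have b3 := h (θ + t)
    change col (γ _) = a ∨ col (γ _) = b at b1 b2 b3
    revert a1 a2 b1 b2 b3
    generalize col (γ (θ + Real.pi / 2)) = c1
    generalize col (γ θ) = c2
    generalize col (γ (θ + t)) = c3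
    intro a1 a2 b1 b2 b3
    omega
  obtain ⟨n, hn'⟩ := exists_nat_gt (Real.pi / 2 / δ)
  have hnpos : (0 : ℝ) < n := lt_trans (by positivity) hn'
  have ht : |Real.pi / 2 / n| < δ := by
    rw [abs_of_pos (by positivity), div_lt_iff₀ hnpos]
    rw [div_lt_iff₀ hδ] at hn'; linarith
  have hind : ∀ k : ℕ, col (γ (k * (Real.pi / 2 / n))) = col (γ 0) := by
    intro k
    induction k with
    | zero => simp
    | succ k ih =>
      rw [← ih, ← hstep (k * (Real.pi / 2 / n)) _ ht]; congr 2; push_cast; ring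
  have := hind n
  rw [mul_div_cancel₀ _ hnpos.ne'] at this
  exact hne (Real.pi / 2) 0 (by simpa using hδ) this

lemma exists_e2 (A : Fin 10 → ℝ) {κ ρ : ℝ} (hκ0 : 0 ≤ κ) (hρ0 : 0 < ρ)
    {u u' : E4} (hu : ‖u‖ = 1) (hu' : ‖u'‖ = 1) (h1 : mu A - κ ≤ qf A u)
    (h2 : mu A - κ ≤ qf A u') (hc : ρ ≤ 1 - ⟪u, u'⟫ ^ 2) :
    ∃ e2 : E4, ‖e2‖ = 1 ∧ ⟪u, e2⟫ = 0 ∧ mu A - qf A e2 ≤ 4 * (κ / ρ) := by
  obtain ⟨p, hp⟩ : ∃ p, p = ⟪u, u'⟫ := ⟨_, rfl⟩
  rw [← hp] at hc
  have hρ : 0 < 1 - p ^ 2 := lt_of_lt_of_le hρ0 hc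
  obtain ⟨r, hr0, hr2⟩ : ∃ r : ℝ, 0 < r ∧ r ^ 2 = 1 - p ^ 2 :=
    ⟨Real.sqrt (1 - p ^ 2), Real.sqrt_pos.2 hρ, Real.sq_sqrt hρ.le⟩
  have hn2 : ‖(-p / r) • u + (1 / r) • u'‖ = 1 := by
    have : ‖(-p / r) • u + (1 / r) • u'‖ ^ 2 = 1 := by
      rw [norm_add_sq_real, norm_smul, norm_smul, inner_smul_left, inner_smul_right, hu, hu',
        ← hp, mul_one, mul_one, Real.norm_eq_abs, Real.norm_eq_abs, sq_abs, sq_abs]
      simp only [conj_trivial]
      field_simp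
      linarith
    exact (pow_eq_one_iff_of_nonneg (norm_nonneg _) two_ne_zero).1 this
  refine ⟨_, hn2, ?_, ?_⟩
  · simp only [inner_add_right, inner_smul_right, real_inner_self_eq_norm_sq, hu, ← hp]
    ring
  · have := span_est A u u' (-p / r) (1 / r)
    rw [hn2, hu, hu'] at this
    have hp2 : p ^ 2 ≤ 1 := by linarith
    have e2' : (1 / r) ^ 2 ≤ 1 / ρ := by
      rw [div_pow, hr2, one_pow]
      exact one_div_le_one_div_of_le hρ0 hc
    have e1 : (-p / r) ^ 2 ≤ 1 / ρ := by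
      refine le_trans ?_ e2'
      rw [div_pow, div_pow, neg_sq, one_pow]
      gcongr
    have b1 : (-p / r) ^ 2 * (mu A * 1 ^ 2 - qf A u) ≤ 1 / ρ * κ :=
      (mul_le_mul_of_nonneg_left (by linarith) (sq_nonneg _)).trans
        (mul_le_mul_of_nonneg_right e1 hκ0)
    have b2 : (1 / r) ^ 2 * (mu A * 1 ^ 2 - qf A u') ≤ 1 / ρ * κ :=
      (mul_le_mul_of_nonneg_left (by linarith) (sq_nonneg _)).trans
        (mul_le_mul_of_nonneg_right e2' hκ0)
    have : κ / ρ = 1 / ρ * κ := by ring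
    linarith

lemma circle_est (A : Fin 10 → ℝ) {k1 k2 : ℝ} (hk1 : 0 ≤ k1) (hk2 : 0 ≤ k2) {u e2 : E4}
    (hu : ‖u‖ = 1) (hn2 : ‖e2‖ = 1) (h12 : ⟪u, e2⟫ = 0) (h1 : mu A - qf A u ≤ k1)
    (h2 : mu A - qf A e2 ≤ k2) (θ : ℝ) :
    ‖Real.cos θ • u + Real.sin θ • e2‖ = 1 ∧
      mu A - qf A (Real.cos θ • u + Real.sin θ • e2) ≤ 2 * k1 + 2 * k2 := by
  have hwn : ‖Real.cos θ • u + Real.sin θ • e2‖ = 1 := by
    have : ‖Real.cos θ • u + Real.sin θ • e2‖ ^ 2 = 1 := by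
      rw [norm_add_sq_real, norm_smul, norm_smul, inner_smul_left, inner_smul_right, hu, hn2,
        h12, mul_one, mul_one, Real.norm_eq_abs, Real.norm_eq_abs, sq_abs, sq_abs]
      simp
    exact (pow_eq_one_iff_of_nonneg (norm_nonneg _) two_ne_zero).1 this
  refine ⟨hwn, ?_⟩
  have := span_est A u e2 (Real.cos θ) (Real.sin θ)
  rw [hwn, hu, hn2] at this
  have b1 : Real.cos θ ^ 2 * (mu A * 1 ^ 2 - qf A u) ≤ 1 * k1 :=
    (mul_le_mul_of_nonneg_left (by linarith) (sq_nonneg _)).trans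
      (mul_le_mul_of_nonneg_right (Real.cos_sq_le_one θ) hk1)
  have b2 : Real.sin θ ^ 2 * (mu A * 1 ^ 2 - qf A e2) ≤ 1 * k2 :=
    (mul_le_mul_of_nonneg_left (by linarith) (sq_nonneg _)).trans
      (mul_le_mul_of_nonneg_right (Real.sin_sq_le_one θ) hk2)
  linarith

lemma num_contra {δ κ μ p : ℝ} (hδ : 0 < δ) (hδ1 : δ ≤ 1) (hμ : 1 / 10 ≤ μ) (hκ0 : 0 ≤ κ)
    (hκ : κ < δ ^ 4 / 720) (h3 : δ ≤ |p|)
    (h4 : μ * p ^ 2 ≤ 2 * κ + 2 * (4 * (κ / (δ ^ 2 / 8))) + κ) : False := by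
  have h5 : δ ^ 2 ≤ p ^ 2 := by
    rw [← sq_abs p]; gcongr
  have hd2 : 0 < δ ^ 2 := by positivity
  have h6 : κ ≤ κ / δ ^ 2 := by
    rw [le_div_iff₀ hd2]
    have : δ ^ 2 ≤ 1 := by nlinarith
    nlinarith
  have h7 : κ / δ ^ 2 < δ ^ 2 / 720 := by
    rw [div_lt_iff₀ hd2]; nlinarith
  have h8 : κ / (δ ^ 2 / 8) = 8 * (κ / δ ^ 2) := by field_simp
  have h9 : 1 / 10 * δ ^ 2 ≤ μ * p ^ 2 := by gcongr
  linarith

lemma nearly_parallel (hδ : 0 < δ) (hδ1 : δ ≤ 1)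
    (hsep : ∀ x y : E4, ‖x‖ = 1 → ‖y‖ = 1 → col x = col y → δ ≤ |⟪x, y⟫|)
    (A : Fin 10 → ℝ) (hμ : 1 / 10 ≤ mu A) {κ : ℝ} (hκ0 : 0 ≤ κ) (hκ : κ < δ ^ 4 / 720)
    {u u' : E4} (hu : ‖u‖ = 1) (hu' : ‖u'‖ = 1) (h1 : mu A - κ ≤ qf A u)
    (h2 : mu A - κ ≤ qf A u') (a b : Fin 10)
    (hneg : ∀ j, j ≠ a → j ≠ b → ∃ y, ‖y‖ = 1 ∧ col y = j ∧ qf A y ≤ - mu A + κ) :
    1 - ⟪u, u'⟫ ^ 2 < δ ^ 2 / 8 := by
  by_contra hc
  push Not at hc
  obtain ⟨e2, hn2, h12, hM2⟩ := exists_e2 A hκ0 (by positivity) hu hu' h1 h2 hc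
  apply two_colour hδ hsep hu hn2 h12 a b
  intro θ
  obtain ⟨hwn, hMw⟩ := circle_est A hκ0 (by positivity) hu hn2 h12 (by linarith) hM2 θ
  generalize Real.cos θ • u + Real.sin θ • e2 = w at hwn hMw ⊢
  by_contra hcol
  push Not at hcol
  obtain ⟨y, hy, hyc, hyq⟩ := hneg (col w) hcol.1 hcol.2
  have h3 := hsep w y hwn hy hyc.symm
  have h4 := orth_est A hwn hy (k1 := 2 * κ + 2 * (4 * (κ / (δ ^ 2 / 8)))) (k2 := κ)
    (by linarith) hyq (by positivity)
  exact num_contra hδ hδ1 hμ hκ0 hκ h3 h4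

lemma near_sign (hδ : 0 < δ)
    (hsep : ∀ x y : E4, ‖x‖ = 1 → ‖y‖ = 1 → col x = col y → δ ≤ |⟪x, y⟫|)
    {u u' : E4} (hu : ‖u‖ = 1) (hu' : ‖u'‖ = 1) (h : 1 - ⟪u, u'⟫ ^ 2 < δ ^ 2 / 8) :
    ∃ e : ZMod 2, ∀ x x' : E4, ‖x‖ = 1 → ‖x'‖ = 1 → col x = col u → col x' = col u' →
      ‖x - x'‖ < δ → sb x u + sb x' u' = e := by
  have hp1 : |⟪u, u'⟫| ≤ 1 := by
    have := abs_real_inner_le_norm u u'
    rwa [hu, hu', mul_one] at this
  have hp := abs_le.1 hp1
  by_cases hs : 0 ≤ ⟪u, u'⟫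
  · refine ⟨0, fun x x' hx hx' c1 c2 hd => ?_⟩
    have : ‖u - u'‖ < δ := by
      apply lt_of_pow_lt_pow_left₀ 2 hδ.le
      rw [norm_sub_sq_real, hu, hu']; nlinarith
    rw [sb_eq hu hx' (hsep _ _ hx hu c1) (hsep _ _ hx' hu' c2) (by linarith), two_eq]
  · refine ⟨1, fun x x' hx hx' c1 c2 hd => ?_⟩
    have : ‖u - -u'‖ < δ := by
      apply lt_of_pow_lt_pow_left₀ 2 hδ.le
      rw [sub_neg_eq_add, norm_add_sq_real, hu, hu']; nlinarith
    have h2 := hsep _ _ hx' hu' c2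
    rw [sb_eq (y' := -u') hu hx' (hsep _ _ hx hu c1) (by simpa using h2) (by linarith),
      sb_neg_right (by intro h0; rw [h0] at h2; simp at h2; linarith)]
    generalize sb x' u' = t; revert t; decide

/-- Coherent sign functions exist. -/
theorem exists_signs (hδ : 0 < δ) (hδ1 : δ ≤ 1) (heven : ∀ x : E4, ‖x‖ = 1 → col (-x) = col x)
    (hsep : ∀ x y : E4, ‖x‖ = 1 → ‖y‖ = 1 → col x = col y → δ ≤ |⟪x, y⟫|) :
    ∃ τ : E4 → ZMod 2, (∀ x, ‖x‖ = 1 → τ (-x) = τ x + 1) ∧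
      (∀ x x', ‖x‖ = 1 → ‖x'‖ = 1 → ‖x - x'‖ < δ → col x = col x' → τ x = τ x') ∧
      (∀ x x' y y', ‖x‖ = 1 → ‖x'‖ = 1 → ‖y‖ = 1 → ‖y'‖ = 1 → ‖x - x'‖ < δ → ‖y - y'‖ < δ →
        col x = col y → col x' = col y' → col x ≠ col x' → τ x + τ x' = τ y + τ y') := by
  set η := δ ^ 4 / 100000 with hη
  have hη0 : 0 < η := by positivity
  obtain ⟨z, hz, hcyc, hK⟩ := exists_chain 9 hη0
  let c : (Fin 10 → ℝ) → Fin 10 := fun v => col (up v)
  let L := List.finRange 10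
  have hL : L.Nodup := List.nodup_finRange 10
  have hLm : ∀ i, i ∈ L := List.mem_finRange
  have hnc : ∀ v w : Fin 10 → ℝ, ∑ i, |v i| = 1 → ∑ i, |w i| = 1 → dist v w ≤ η →
      c v = c w → sg v = sg w := by
    have aux : ∀ v w : Fin 10 → ℝ, ∑ i, |v i| = 1 → dist w v ≤ η →
        c v = c w → sg v = 0 → sg w = 1 → False := by
      intro v w hv hd hc s0 s1
      have a1 := pos_est (a0 := v) (a := v) (η := η) (by simpa using hη0.le) s0
      have a2 := neg_est hd s1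
      have a3 := orth_est v (up_norm v) (up_norm w) a1 a2 (by positivity)
      have a4 := hsep _ _ (up_norm v) (up_norm w) hc
      have a5 : δ ^ 2 ≤ ⟪up v, up w⟫ ^ 2 := by
        rw [← sq_abs ⟪up v, up w⟫]; gcongr
      have a6 := mu_lower hv
      have a7 : 1 / 10 * δ ^ 2 ≤ mu v * ⟪up v, up w⟫ ^ 2 := by gcongr
      have a8 : δ ^ 2 ≤ 1 := by nlinarith
      have a9 : 0 < δ ^ 2 := by positivity
      have : δ ^ 4 ≤ δ ^ 2 := by nlinarith
      linarith
    intro v w hv hw hd hc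
    have z2 : ∀ t : ZMod 2, t = 0 ∨ t = 1 := by decide
    rcases z2 (sg v) with s0 | s0 <;> rcases z2 (sg w) with s1 | s1
    · rw [s0, s1]
    · exact (aux v w hv (by rwa [dist_comm]) hc s0 s1).elim
    · exact (aux w v hw hd hc.symm s1 s0).elim
    · rw [s0, s1]
  have hone : ∀ a, avg c sg z L a (fun _ => 1) = 1 := by
    intro a
    have h := KF_pattern hK c sg L hL (fun s hs => by simpa [L] using (hz s hs).1)
      (fun x _ => hLm _) (fun x hx => ⟨congrArg col (up_neg x), sg_neg hx⟩) hnc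
      (fun i => if i = a then 0 else 1)
    rw [cups_perm ((List.perm_cons_erase (hLm a)).map _)] at h
    simp only [List.map_cons, cups, if_true] at h
    simp only [avg, one_mul]
    rw [List.map_congr_left (g := fun j => ind c sg j 1) (fun j hj => by
      rw [if_neg ((List.Nodup.mem_erase_iff hL).1 hj).1])] at h
    exact h
  refine ⟨fun x => avg c sg z L (col x) (fun v => sb x (up v)), ?_, ?_, ?_⟩
  · intro x hx
    simp only [heven x hx]
    rw [← hone (col x), ← avg_add]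
    apply avg_congr
    intro s _ v _ hv
    have := hsep _ _ hx (up_norm v) hv.symm
    exact sb_neg_left (by intro h0; rw [h0] at this; simp at this; linarith)
  · intro x x' hx hx' hd hc
    simp only [← hc]
    apply avg_congr
    intro s _ v _ hv
    exact sb_eq (up_norm v) hx' (hsep _ _ hx (up_norm v) hv.symm)
      (hsep _ _ hx' (up_norm v) (hc.symm.trans hv.symm)) (by simp; linarith)
  · intro x x' y y' hx hx' hy hy' d1 d2 c1 c2 hne
    simp only [← c1, ← c2]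
    let P : Fin 10 → E4 := fun i => if i = col x then x else x'
    let Q : Fin 10 → E4 := fun i => if i = col x then y else y'
    have key := avg_pair c sg z L hL hcyc
      (fun s hs v hv w hw => hnc v w ((hz s hs).2.1 v hv) ((hz s hs).2.1 w hw)
        ((hz s hs).2.2 v hv w hw))
      (fun _ _ _ _ => hLm _) (col x) (col x') (hLm _) (hLm _) hne
      (fun v => sb (P (c v)) (up v) + sb (Q (c v)) (up v)) (by
        intro s hs hneg v hv w hw sv sw
        obtain ⟨-, hG1, hG2⟩ := hz s hs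
        have hcol : ∀ v ∈ s, sg v = 0 → c v = col x ∨ c v = col x' := by
          intro v hv sv
          by_contra hc
          push Not at hc
          obtain ⟨y, hy, h1, h2⟩ := hneg (c v) (hLm _) hc.1 hc.2
          have := hnc y v (hG1 y hy) (hG1 v hv) (hG2 y hy v hv) h1
          rw [h2, sv] at this
          exact absurd this (by decide)
        have hnp := nearly_parallel hδ hδ1 hsep v (mu_lower (hG1 v hv)) (κ := 32 * η)
          (by positivity) (by have : 0 < δ ^ 4 := by positivity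
                              linarith) (up_norm v) (up_norm w)
          (pos_est (hG2 v hv v hv) sv) (pos_est (hG2 w hw v hv) sw) (col x) (col x') (by
            intro j h1 h2
            obtain ⟨y, hy, h3, h4⟩ := hneg j (hLm _) h1 h2
            exact ⟨up y, up_norm y, h3, neg_est (hG2 y hy v hv) h4⟩)
        obtain ⟨e, he⟩ := near_sign hδ hsep (up_norm v) (up_norm w) hnp
        have hP : ∀ i, i = col x ∨ i = col x' → ‖P i‖ = 1 ∧ col (P i) = i ∧ ‖Q i‖ = 1 ∧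
            col (Q i) = i := by
          rintro i (rfl | rfl)
          · simp only [P, Q, if_true]
            exact ⟨hx, trivial, hy, c1.symm⟩
          · simp only [P, Q, if_neg hne.symm]
            exact ⟨hx', trivial, hy', c2.symm⟩
        have hD : ∀ i j, ‖P i - P j‖ < δ ∧ ‖Q i - Q j‖ < δ := by
          intro i j
          by_cases hi : i = col x <;> by_cases hj : j = col x <;>
            simp [P, Q, hi, hj, hδ, d1, d2, norm_sub_rev x' x, norm_sub_rev y' y]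
        obtain ⟨p1, p2, p3, p4⟩ := hP _ (hcol v hv sv)
        obtain ⟨q1, q2, q3, q4⟩ := hP _ (hcol w hw sw)
        have e1 := he _ _ p1 q1 p2 q2 (hD _ _).1
        have e2 := he _ _ p3 q3 p4 q4 (hD _ _).2
        revert e1 e2
        generalize sb (P (c v)) (up v) = t1
        generalize sb (P (c w)) (up w) = t2
        generalize sb (Q (c v)) (up v) = t3
        generalize sb (Q (c w)) (up w) = t4
        clear he
        revert t1 t2 t3 t4 e; decide)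
    rw [avg_congr c sg z L (col x) _ (fun v => sb x (up v) + sb y (up v))
      (fun s _ v _ hv => by simp [P, Q, hv]),
      avg_congr c sg z L (col x') _ (fun v => sb x' (up v) + sb y' (up v))
      (fun s _ v _ hv => by simp [P, Q, hv, hne.symm]), avg_add, avg_add] at key
    revert key
    generalize avg c sg z L (col x) (fun v => sb x (up v)) = t1
    generalize avg c sg z L (col x) (fun v => sb y (up v)) = t2
    generalize avg c sg z L (col x') (fun v => sb x' (up v)) = t3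
    generalize avg c sg z L (col x') (fun v => sb y' (up v)) = t4
    revert t1 t2 t3 t4; decide

end

/-- Normalisation map to the unit sphere. -/
noncomputable def nrm (x : Fin 4 → ℝ) : E4 := ‖(WithLp.toLp 2 x : E4)‖⁻¹ • WithLp.toLp 2 x

lemma half_le {x : Fin 4 → ℝ} (hx : ∑ i, |x i| = 1) : 1 / 2 ≤ ‖(WithLp.toLp 2 x : E4)‖ := by
  apply le_of_sq_le_sq _ (norm_nonneg _)
  rw [norm_sq_E4]
  rw [Fin.sum_univ_four] at hx
  simp only [← sq_abs (x 0), ← sq_abs (x 1), ← sq_abs (x 2), ← sq_abs (x 3)]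
  nlinarith [sq_nonneg (|x 0| - 1 / 4), sq_nonneg (|x 1| - 1 / 4), sq_nonneg (|x 2| - 1 / 4),
    sq_nonneg (|x 3| - 1 / 4)]

lemma nrm_norm {x : Fin 4 → ℝ} (hx : ∑ i, |x i| = 1) : ‖nrm x‖ = 1 := by
  have := half_le hx
  rw [nrm, norm_smul, norm_inv, norm_norm, inv_mul_cancel₀ (by linarith)]

lemma nrm_neg (x : Fin 4 → ℝ) : nrm (-x) = - nrm x := by
  simp [nrm]

lemma nrm_dist {x y : Fin 4 → ℝ} (hx : ∑ i, |x i| = 1) (hy : ∑ i, |y i| = 1) :
    ‖nrm x - nrm y‖ ≤ 8 * dist x y := by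
  have h1 := half_le hx
  have h2 := half_le hy
  have h3 : ‖(WithLp.toLp 2 x : E4) - WithLp.toLp 2 y‖ ≤ 2 * dist x y := by
    apply le_of_sq_le_sq _ (by positivity)
    rw [norm_sq_E4]
    have hd : ∀ i, (x i - y i) ^ 2 ≤ dist x y ^ 2 := fun i => by
      rw [← sq_abs, ← Real.dist_eq]
      exact pow_le_pow_left₀ dist_nonneg (dist_le_pi_dist x y i) 2
    simp only [PiLp.sub_apply]
    linarith [hd 0, hd 1, hd 2, hd 3]
  simp only [nrm]
  generalize (WithLp.toLp 2 x : E4) = u at *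
  generalize (WithLp.toLp 2 y : E4) = v at *
  have hu : 0 < ‖u‖ := by linarith
  have hv : 0 < ‖v‖ := by linarith
  have e : ‖u‖⁻¹ • u - ‖v‖⁻¹ • v = ‖u‖⁻¹ • (u - v) + (‖u‖⁻¹ * (‖v‖ - ‖u‖) * ‖v‖⁻¹) • v := by
    have : ‖u‖⁻¹ * (‖v‖ - ‖u‖) * ‖v‖⁻¹ = ‖u‖⁻¹ - ‖v‖⁻¹ := by field_simp
    rw [this]; module
  have hi : ‖u‖⁻¹ ≤ 2 := by
    rw [inv_le_comm₀ hu (by norm_num)]; linarith
  have h4 : |‖v‖ - ‖u‖| ≤ ‖u - v‖ := by
    rw [norm_sub_rev]; exact abs_norm_sub_norm_le v u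
  rw [e]
  refine (norm_add_le _ _).trans ?_
  rw [norm_smul, norm_smul, norm_mul, norm_mul, norm_inv, norm_inv, norm_norm, norm_norm,
    mul_assoc, inv_mul_cancel₀ hv.ne', mul_one, Real.norm_eq_abs]
  have a1 : ‖u‖⁻¹ * ‖u - v‖ ≤ 2 * (2 * dist x y) := by gcongr
  have a2 : ‖u‖⁻¹ * |‖v‖ - ‖u‖| ≤ 2 * (2 * dist x y) := by
    gcongr; exact h4.trans h3
  linarith

/-- The core theorem. -/
theorem core (col : E4 → Fin 10) (δ : ℝ) (hδ : 0 < δ)
    (heven : ∀ x : E4, ‖x‖ = 1 → col (-x) = col x)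
    (hsep : ∀ x y : E4, ‖x‖ = 1 → ‖y‖ = 1 → col x = col y → δ ≤ |⟪x, y⟫|) : False := by
  classical
  have hδ1 : δ ≤ 1 := by
    have h := hsep _ _ (up_norm 0) (up_norm 0) rfl
    rwa [real_inner_self_eq_norm_sq, up_norm, one_pow, abs_one] at h
  obtain ⟨τ, t1, t2, t3⟩ := exists_signs hδ hδ1 heven hsep
  let ε : Fin 10 → Fin 10 → ZMod 2 := fun a b =>
    if ∃ x x' : E4, ‖x‖ = 1 ∧ ‖x'‖ = 1 ∧ ‖x - x'‖ < δ ∧ col x = a ∧ col x' = b ∧ τ x + τ x' = 1
    then 1 else 0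
  have hs : ∀ a b, ε a b = ε b a := by
    have aux : ∀ a b, (∃ x x' : E4, ‖x‖ = 1 ∧ ‖x'‖ = 1 ∧ ‖x - x'‖ < δ ∧ col x = a ∧ col x' = b ∧
        τ x + τ x' = 1) → ∃ x x' : E4, ‖x‖ = 1 ∧ ‖x'‖ = 1 ∧ ‖x - x'‖ < δ ∧ col x = b ∧
        col x' = a ∧ τ x + τ x' = 1 := by
      rintro a b ⟨x, x', h1, h2, h3, h4, h5, h6⟩
      exact ⟨x', x, h2, h1, by rwa [norm_sub_rev], h5, h4, by rwa [add_comm]⟩
    intro a b
    exact if_congr ⟨aux a b, aux b a⟩ rfl rfl
  have hε : ∀ x x' : E4, ‖x‖ = 1 → ‖x'‖ = 1 → ‖x - x'‖ < δ → col x ≠ col x' →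
      ε (col x) (col x') = τ x + τ x' := by
    intro x x' h1 h2 h3 h4
    simp only [ε]
    split_ifs with h
    · obtain ⟨y, y', g1, g2, g3, g4, g5, g6⟩ := h
      rw [t3 x x' y y' h1 h2 g1 g2 h3 g3 g4.symm g5.symm h4, g6]
    · have : τ x + τ x' ≠ 1 := fun h5 => h ⟨x, x', h1, h2, h3, rfl, rfl, h5⟩
      revert this
      generalize τ x + τ x' = t
      revert t; decide
  apply not_hyp ε hs
  intro π κ hπ hadm
  obtain ⟨z, hz, -, hK⟩ := exists_chain 3 (η := δ / 16) (by positivity)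
  have hclose : ∀ x y : Fin 4 → ℝ, ∑ i, |x i| = 1 → ∑ i, |y i| = 1 → dist x y ≤ δ / 16 →
      ‖nrm x - nrm y‖ < δ := fun x y hx hy hd => by
    have := nrm_dist hx hy
    linarith
  have h := hK.alt_eq (fun x => π (col (nrm x))) (fun x => τ (nrm x) + κ (col (nrm x)))
    (List.range 10) List.nodup_range (fun x _ => List.mem_range.2 (hπ _))
    (fun x hx => by
      have h1 : col (nrm (-x)) = col (nrm x) := by rw [nrm_neg]; exact heven _ (nrm_norm hx)
      have h2 : τ (nrm (-x)) = τ (nrm x) + 1 := by rw [nrm_neg]; exact t1 _ (nrm_norm hx)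
      refine ⟨congrArg π h1, ?_⟩
      rw [h1, h2]; ring)
    (fun x y hx hy hd hp => by
      by_cases hc : col (nrm x) = col (nrm y)
      · rw [t2 _ _ (nrm_norm hx) (nrm_norm hy) (hclose x y hx hy hd) hc, hc]
      · have e1 := hε _ _ (nrm_norm hx) (nrm_norm hy) (hclose x y hx hy hd) hc
        rw [hadm _ _ hc hp] at e1
        revert e1
        generalize τ (nrm x) = a
        generalize τ (nrm y) = b
        generalize κ (col (nrm x)) = c
        generalize κ (col (nrm y)) = d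
        revert a b c d; decide) 0
  obtain ⟨l, hl, hne⟩ := ev_ne_zero (by rw [h]; decide : ev z _ ≠ 0)
  obtain ⟨s, hs1, hs2, hs3, hs4⟩ := alt_ne_zero _ _ _ _ _ hne
  obtain ⟨hlen, hG1, hG2⟩ := hz l hl
  rw [hlen] at hs1
  obtain ⟨x0, x1, x2, x3, rfl⟩ : ∃ x0 x1 x2 x3, s = [x0, x1, x2, x3] := by
    match s, hs1 with
    | [x0, x1, x2, x3], _ => exact ⟨x0, x1, x2, x3, rfl⟩
  have hpw := List.pairwise_lt_range.sublist hs3
  simp only [List.map_cons, List.map_nil, List.pairwise_cons, List.mem_cons, List.not_mem_nil,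
    or_false, forall_eq_or_imp, forall_eq] at hpw
  obtain ⟨⟨p01, p02, p03⟩, ⟨p12, p13⟩, p23, -⟩ := hpw
  have s0 := hs4 0 (by simp)
  have s1 := hs4 1 (by simp)
  have s2 := hs4 2 (by simp)
  have s3 := hs4 3 (by simp)
  simp only [List.getElem_cons_zero, List.getElem_cons_succ] at s0 s1 s2 s3
  have m0 := hs2 x0 (by simp)
  have m1 := hs2 x1 (by simp)
  have m2 := hs2 x2 (by simp)
  have m3 := hs2 x3 (by simp)
  have key : ∀ x y, x ∈ l → y ∈ l → π (col (nrm x)) < π (col (nrm y)) →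
      ε (col (nrm x)) (col (nrm y)) = τ (nrm x) + τ (nrm y) := by
    intro x y hx hy hp
    exact hε _ _ (nrm_norm (hG1 x hx)) (nrm_norm (hG1 y hy))
      (hclose x y (hG1 x hx) (hG1 y hy) (hG2 x hx y hy)) (fun h => by rw [h] at hp; omega)
  refine ⟨col (nrm x0), col (nrm x1), col (nrm x2), col (nrm x3), p01, p12, p23, ?_⟩
  rw [key _ _ m0 m1 p01, key _ _ m0 m2 p02, key _ _ m0 m3 p03, key _ _ m1 m2 p12,
    key _ _ m1 m3 p13, key _ _ m2 m3 p23]
  revert s0 s1 s2 s3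
  generalize τ (nrm x0) = a0
  generalize τ (nrm x1) = a1
  generalize τ (nrm x2) = a2
  generalize τ (nrm x3) = a3
  generalize κ (col (nrm x0)) = b0
  generalize κ (col (nrm x1)) = b1
  generalize κ (col (nrm x2)) = b2
  generalize κ (col (nrm x3)) = b3
  revert a0 a1 a2 a3 b0 b1 b2 b3; decide

end Vale.Agent.P052
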