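import Mathlib
import Vale.Agent.P052.Core

/-! The rotation group, with extra simplex vertices, as a subset of Euclidean space. -/

namespace Vale.Agent.P052

open scoped RealInnerProductSpace

/-- Entries of the rotation matrix of a quaternion, followed by a one. -/
def rot (x : E4) : Fin 10 → ℝ :=
  ![x 0 ^ 2 + x 1 ^ 2 - x 2 ^ 2 - x 3 ^ 2, 2 * (x 1 * x 2 - x 0 * x 3), 2 * (x 1 * x 3 + x 0 * x 2),
    2 * (x 1 * x 2 + x 0 * x 3), x 0 ^ 2 - x 1 ^ 2 + x 2 ^ 2 - x 3 ^ 2, 2 * (x 2 * x 3 - x 0 * x 1),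
    2 * (x 1 * x 3 - x 0 * x 2), 2 * (x 2 * x 3 + x 0 * x 1), x 0 ^ 2 - x 1 ^ 2 - x 2 ^ 2 + x 3 ^ 2,
    1]

lemma rot_neg (x : E4) : rot (-x) = rot x := by
  simp [rot]

lemma rot_inner (x y : E4) :
    ∑ i, rot x i * rot y i = 4 * ⟪x, y⟫ ^ 2 - ‖x‖ ^ 2 * ‖y‖ ^ 2 + 1 := by
  rw [norm_sq_E4, norm_sq_E4, inner_E4]
  simp [rot, Fin.sum_univ_succ]
  ring

lemma exists_flat {F : Type*} [NormedAddCommGroup F] [InnerProductSpace ℝ F] (d : ℕ)
    (hF : Module.finrank ℝ F = d + 1) (v : F) (hv : v ≠ 0) :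
    ∃ Ψ : F → EuclideanSpace ℝ (Fin d), ∀ p q, ⟪v, p⟫ = ⟪v, q⟫ → dist (Ψ p) (Ψ q) = dist p q := by
  have : Fact (Module.finrank ℝ F = d + 1) := ⟨hF⟩
  have : FiniteDimensional ℝ F := FiniteDimensional.of_finrank_eq_succ hF
  let e := (OrthonormalBasis.fromOrthogonalSpanSingleton (𝕜 := ℝ) d hv).repr
  refine ⟨fun p => e ((ℝ ∙ v)ᗮ.orthogonalProjectionOnto p), fun p q h => ?_⟩
  rw [LinearIsometryEquiv.dist_map, dist_eq_norm, dist_eq_norm, ← map_sub]
  have hm : p - q ∈ (ℝ ∙ v)ᗮ := by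
    rw [Submodule.mem_orthogonal_singleton_iff_inner_right, inner_sub_right, h, sub_self]
  have := Submodule.orthogonalProjectionOnto_mem_subspace_eq_self (⟨p - q, hm⟩ : (ℝ ∙ v)ᗮ)
  rw [this]; rfl

lemma exists_points (m : ℕ) : ∃ (P : E4 → EuclideanSpace ℝ (Fin (9 + m)))
    (Q : Fin m → EuclideanSpace ℝ (Fin (9 + m))), (∀ x, P (-x) = P x) ∧
    (∀ x y, ‖x‖ = 1 → ‖y‖ = 1 → dist (P x) (P y) ^ 2 = 8 - 8 * ⟪x, y⟫ ^ 2) ∧
    (∀ x t, ‖x‖ = 1 → dist (P x) (Q t) ^ 2 = 8) ∧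
    (∀ t t', t ≠ t' → dist (Q t) (Q t') ^ 2 = 8) := by
  let F := EuclideanSpace ℝ (Fin 10 ⊕ Fin m)
  let v : F := WithLp.toLp 2 (Sum.elim (Pi.single 9 2) (fun _ => 1))
  let R : E4 → F := fun x => WithLp.toLp 2 (Sum.elim (rot x) 0)
  let A : Fin m → F := fun t => WithLp.toLp 2 (Sum.elim 0 (Pi.single t 2))
  have hin : ∀ (a b : Fin 10 → ℝ) (c d : Fin m → ℝ),
      ⟪(WithLp.toLp 2 (Sum.elim a c) : F), (WithLp.toLp 2 (Sum.elim b d) : F)⟫ =
        ∑ i, a i * b i + ∑ t, c t * d t := by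
    intro a b c d
    rw [PiLp.inner_apply, Fintype.sum_sum_type]
    simp [mul_comm]
  have hv : v ≠ 0 := by
    intro h
    have := congrArg (fun w : F => w (Sum.inl 9)) h
    simp [v] at this
  obtain ⟨Ψ, hΨ⟩ := exists_flat (F := F) (9 + m) (by simp [F]; ring) v hv
  have hvR : ∀ x, ⟪v, R x⟫ = 2 := by
    intro x; simp only [v, R, hin]; simp [Pi.single_apply, rot]
  have hvA : ∀ t, ⟪v, A t⟫ = 2 := by
    intro t; simp only [v, A, hin]; simp [Pi.single_apply]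
  have hRR : ∀ x y, ‖x‖ = 1 → ‖y‖ = 1 → ⟪R x, R y⟫ = 4 * ⟪x, y⟫ ^ 2 := by
    intro x y hx hy; simp only [R, hin, rot_inner, hx, hy]; simp
  have hRA : ∀ x t, ⟪R x, A t⟫ = 0 := by
    intro x t; simp only [R, A, hin]; simp
  have hAA : ∀ t t', ⟪A t, A t'⟫ = if t = t' then 4 else 0 := by
    intro t t'; simp only [A, hin]; simp [Pi.single_apply]
    split_ifs with h1 h2 h2 <;> simp_all
    norm_num
  have hR : ∀ x, ‖x‖ = 1 → ‖R x‖ ^ 2 = 4 := by
    intro x hx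
    rw [← real_inner_self_eq_norm_sq, hRR x x hx hx, real_inner_self_eq_norm_sq, hx]; norm_num
  have hA : ∀ t, ‖A t‖ ^ 2 = 4 := by
    intro t
    rw [← real_inner_self_eq_norm_sq, hAA]; simp
  refine ⟨fun x => Ψ (R x), fun t => Ψ (A t), ?_, ?_, ?_, ?_⟩
  · intro x; simp only [R, rot_neg]
  · intro x y hx hy
    rw [hΨ _ _ (by rw [hvR, hvR]), dist_eq_norm, norm_sub_sq_real, hR x hx, hR y hy,
      hRR x y hx hy]; ring
  · intro x t hx
    rw [hΨ _ _ (by rw [hvR, hvA]), dist_eq_norm, norm_sub_sq_real, hR x hx, hA, hRA]; ring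
  · intro t t' h
    rw [hΨ _ _ (by rw [hvA, hvA]), dist_eq_norm, norm_sub_sq_real, hA, hA, hAA, if_neg h]; ring

theorem borsuk_fails (d : ℕ) (hd : 9 ≤ d) :
    ∃ Y : Set (EuclideanSpace ℝ (Fin d)), Bornology.IsBounded Y ∧ 0 < Metric.diam Y ∧
      ¬ ∃ C : Fin (d + 1) → Set (EuclideanSpace ℝ (Fin d)),
        (⋃ i, C i) = Y ∧ ∀ i, Metric.diam (C i) < Metric.diam Y := by
  classical
  obtain ⟨m, rfl⟩ := Nat.exists_eq_add_of_le hd
  obtain ⟨P, Q, hPn, hPP, hPQ, hQQ⟩ := exists_points m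
  set Y := P '' {x | ‖x‖ = 1} ∪ Set.range Q with hY
  have h8 : Real.sqrt 8 ^ 2 = 8 := Real.sq_sqrt (by norm_num)
  have hs0 : 0 ≤ Real.sqrt 8 := Real.sqrt_nonneg _
  have hdist : ∀ p ∈ Y, ∀ q ∈ Y, dist p q ≤ Real.sqrt 8 := by
    intro p hp q hq
    apply le_of_sq_le_sq _ hs0
    rw [h8]
    rcases hp with ⟨x, hx, rfl⟩ | ⟨t, rfl⟩ <;> rcases hq with ⟨y, hy, rfl⟩ | ⟨t', rfl⟩
    · rw [hPP x y hx hy]; nlinarith [sq_nonneg ⟪x, y⟫]
    · rw [hPQ x t' hx]
    · rw [dist_comm, hPQ y t hy]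
    · by_cases h : t = t'
      · subst h; simp
      · rw [hQQ t t' h]
  have hb : Bornology.IsBounded Y :=
    Metric.isBounded_iff.2 ⟨Real.sqrt 8, fun p hp q hq => hdist p hp q hq⟩
  have hdiam : Metric.diam Y ≤ Real.sqrt 8 := Metric.diam_le_of_forall_dist_le hs0 hdist
  refine ⟨Y, hb, ?_, ?_⟩
  · have h0 : ‖(!₂[1, 0, 0, 0] : E4)‖ = 1 := by
      apply (pow_eq_one_iff_of_nonneg (norm_nonneg _) two_ne_zero).1
      rw [norm_sq_E4]; simp
    have h1 : ‖(!₂[0, 1, 0, 0] : E4)‖ = 1 := by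
      apply (pow_eq_one_iff_of_nonneg (norm_nonneg _) two_ne_zero).1
      rw [norm_sq_E4]; simp
    have h2 := hPP _ _ h0 h1
    rw [inner_E4] at h2
    simp at h2
    have h3 := Metric.dist_le_diam_of_mem hb (Or.inl ⟨_, h0, rfl⟩) (Or.inl ⟨_, h1, rfl⟩)
    refine lt_of_lt_of_le ?_ h3
    apply lt_of_le_of_ne dist_nonneg
    intro h; rw [← h] at h2; norm_num at h2
  · rintro ⟨C, hC, hCd⟩
    obtain ⟨i0, -, hi0⟩ := Finset.exists_max_image Finset.univ (fun i => Metric.diam (C i))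
      Finset.univ_nonempty
    set D := Metric.diam (C i0) with hD
    have hD0 : 0 ≤ D := Metric.diam_nonneg
    have hD8 : D ^ 2 < 8 := by
      rw [← h8]; exact pow_lt_pow_left₀ ((hCd i0).trans_le hdiam) hD0 two_ne_zero
    have hk : ∀ p, ∃ i, p ∈ Y → p ∈ C i := by
      intro p
      by_cases hp : p ∈ Y
      · rw [← hC] at hp
        obtain ⟨i, hi⟩ := Set.mem_iUnion.1 hp
        exact ⟨i, fun _ => hi⟩
      · exact ⟨0, fun h => absurd h hp⟩
    choose k hk using hk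
    have hsame : ∀ p ∈ Y, ∀ q ∈ Y, k p = k q → dist p q ^ 2 ≤ D ^ 2 := by
      intro p hp q hq h
      have hsub : C (k p) ⊆ Y := by rw [← hC]; exact Set.subset_iUnion C _
      have := Metric.dist_le_diam_of_mem (hb.subset hsub) (hk p hp) (h ▸ hk q hq)
      exact pow_le_pow_left₀ dist_nonneg (this.trans (hi0 _ (Finset.mem_univ _))) 2
    have hQY : ∀ t, Q t ∈ Y := fun t => Or.inr ⟨t, rfl⟩
    have hPY : ∀ x, ‖x‖ = 1 → P x ∈ Y := fun x hx => Or.inl ⟨x, hx, rfl⟩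
    have hinj : Function.Injective fun t => k (Q t) := by
      intro t t' h
      by_contra hne
      have := hsame _ (hQY t) _ (hQY t') h
      rw [hQQ t t' hne] at this; linarith
    set S : Finset (Fin (9 + m + 1)) := (Finset.univ.image fun t => k (Q t))ᶜ with hS
    have hcard : S.card = 10 := by
      rw [hS, Finset.card_compl, Finset.card_image_of_injective _ hinj]; simp; omega
    have hmem : ∀ x, ‖x‖ = 1 → k (P x) ∈ S := by
      intro x hx
      rw [hS, Finset.mem_compl]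
      intro h
      obtain ⟨t, -, ht⟩ := Finset.mem_image.1 h
      have := hsame _ (hPY x hx) _ (hQY t) ht.symm
      rw [hPQ x t hx] at this; linarith
    let col : E4 → Fin 10 := fun x =>
      if h : k (P x) ∈ S then (S.orderIsoOfFin hcard).symm ⟨_, h⟩ else 0
    apply core col (Real.sqrt ((8 - D ^ 2) / 8)) (Real.sqrt_pos.2 (by linarith))
    · intro x _; simp only [col, hPn]
    · intro x y hx hy h
      simp only [col, dif_pos (hmem x hx), dif_pos (hmem y hy)] at h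
      have h' : k (P x) = k (P y) := congrArg Subtype.val ((S.orderIsoOfFin hcard).symm.injective h)
      have := hsame _ (hPY x hx) _ (hPY y hy) h'
      rw [hPP x y hx hy] at this
      rw [Real.sqrt_le_left (abs_nonneg _), sq_abs]
      linarith

end Vale.Agent.P052
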